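import Mathlib

/-!
# Symmetric convex bodies, polars and covering numbers (P126)
-/

open scoped Pointwise InnerProductSpace
open Set Metric

namespace Vale.Agent.P126

/-- An origin-symmetric convex body: compact, convex, nonempty interior, `-K = K`. -/
structure IsSymBody {E : Type*} [NormedAddCommGroup E] [InnerProductSpace ℝ E] (K : Set E) :
    Prop where
  convex : Convex ℝ K
  compact : IsCompact K
  interior_nonempty : (interior K).Nonempty
  symm : -K = K

/-- The polar `{y | ∀ x ∈ K, ⟪x, y⟫ ≤ 1}`. -/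
def polarBody {E : Type*} [NormedAddCommGroup E] [InnerProductSpace ℝ E] (K : Set E) : Set E :=
  {y | ∀ x ∈ K, ⟪x, y⟫_ℝ ≤ 1}

/-- The least number of translates `c + B` whose union contains `A`. -/
noncomputable def covNum {E : Type*} [AddCommGroup E] (A B : Set E) : ℕ :=
  sInf {m : ℕ | ∃ S : Finset E, S.card = m ∧ A ⊆ (S : Set E) + B}

variable {E : Type*} [NormedAddCommGroup E] [InnerProductSpace ℝ E] [FiniteDimensional ℝ E]
variable {K L A B : Set E} {t : ℝ}

namespace IsSymBody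

omit [FiniteDimensional ℝ E] in
lemma neg_mem (h : IsSymBody K) {x : E} (hx : x ∈ K) : -x ∈ K := by
  rw [← h.symm]
  simpa using hx

omit [FiniteDimensional ℝ E] in
lemma zero_mem_interior (h : IsSymBody K) : (0 : E) ∈ interior K := by
  obtain ⟨x, hx⟩ := h.interior_nonempty
  have hneg : -x ∈ K := h.neg_mem (interior_subset hx)
  have := h.convex.combo_interior_self_mem_interior hx hneg (a := (1 / 2 : ℝ)) (b := (1 / 2 : ℝ))
    (by norm_num) (by norm_num) (by norm_num)
  simpa using this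

omit [FiniteDimensional ℝ E] in
lemma zero_mem (h : IsSymBody K) : (0 : E) ∈ K := interior_subset h.zero_mem_interior

omit [FiniteDimensional ℝ E] in
lemma exists_ball (h : IsSymBody K) : ∃ r > (0 : ℝ), closedBall (0 : E) r ⊆ K := by
  obtain ⟨r, hr, hsub⟩ :=
    nhds_basis_closedBall.mem_iff.mp (mem_interior_iff_mem_nhds.mp h.zero_mem_interior)
  exact ⟨r, hr, hsub⟩

omit [FiniteDimensional ℝ E] in
lemma exists_bound (h : IsSymBody K) : ∃ R > (0 : ℝ), ∀ x ∈ K, ‖x‖ ≤ R := by
  obtain ⟨R, hR, hb⟩ := h.compact.isBounded.exists_pos_norm_le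
  exact ⟨R, hR, hb⟩

omit [FiniteDimensional ℝ E] in
lemma smul (h : IsSymBody K) (ht : t ≠ 0) : IsSymBody (t • K) := by
  refine ⟨h.convex.smul t, h.compact.smul t, ?_, ?_⟩
  · rw [interior_smul₀ ht]
    exact h.interior_nonempty.smul_set
  · rw [← smul_set_neg, h.symm]

omit [FiniteDimensional ℝ E] in
lemma inter (hK : IsSymBody K) (hL : IsSymBody L) : IsSymBody (K ∩ L) := by
  refine ⟨hK.convex.inter hL.convex, hK.compact.inter_right hL.compact.isClosed, ?_, ?_⟩
  · exact ⟨0, by rw [interior_inter]; exact ⟨hK.zero_mem_interior, hL.zero_mem_interior⟩⟩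
  · rw [Set.inter_neg, hK.symm, hL.symm]

lemma polar (h : IsSymBody K) : IsSymBody (polarBody K) := by
  obtain ⟨r, hr, hball⟩ := h.exists_ball
  obtain ⟨R, hR, hbd⟩ := h.exists_bound
  refine ⟨?_, ?_, ?_, ?_⟩
  · intro y hy z hz a b ha hb hab x hx
    have h1 := hy x hx
    have h2 := hz x hx
    rw [inner_add_right, real_inner_smul_right, real_inner_smul_right]
    nlinarith [mul_le_mul_of_nonneg_left h1 ha, mul_le_mul_of_nonneg_left h2 hb]
  · refine isCompact_of_isClosed_isBounded ?_ ?_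
    · simp only [polarBody, Set.setOf_forall]
      exact isClosed_iInter fun x => isClosed_iInter fun _ =>
        isClosed_le (by fun_prop) continuous_const
    · refine (Metric.isBounded_closedBall (x := (0 : E)) (r := 1 / r)).subset ?_
      intro y hy
      rw [mem_closedBall, dist_zero_right]
      by_cases hy0 : y = 0
      · subst hy0; simp; positivity
      · have hn : 0 < ‖y‖ := norm_pos_iff.mpr hy0
        have hx : (r / ‖y‖) • y ∈ K := by
          apply hball
          rw [mem_closedBall, dist_zero_right, norm_smul, Real.norm_eq_abs,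
            abs_of_pos (by positivity), div_mul_cancel₀ _ hn.ne']
        have := hy _ hx
        rw [real_inner_smul_left, real_inner_self_eq_norm_sq] at this
        rw [le_div_iff₀ hr]
        calc ‖y‖ * r = r / ‖y‖ * ‖y‖ ^ 2 := by field_simp
          _ ≤ 1 := this
  · refine ⟨0, mem_interior_iff_mem_nhds.mpr (Filter.mem_of_superset
      (Metric.ball_mem_nhds (0 : E) (show 0 < 1 / R by positivity)) ?_)⟩
    intro y hy x hx
    rw [mem_ball, dist_zero_right] at hy
    calc ⟪x, y⟫_ℝ ≤ ‖x‖ * ‖y‖ := real_inner_le_norm x y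
      _ ≤ R * (1 / R) := mul_le_mul (hbd x hx) hy.le (norm_nonneg _) hR.le
      _ = 1 := by field_simp
  · ext y
    simp only [Set.mem_neg, polarBody, Set.mem_setOf_eq, inner_neg_right]
    constructor
    · intro hy x hx
      simpa using hy (-x) (h.neg_mem hx)
    · intro hy x hx
      simpa using hy (-x) (h.neg_mem hx)

end IsSymBody

omit [FiniteDimensional ℝ E] in
lemma inner_le_of_mem_smul (ht : 0 ≤ t) {x y : E} (hx : x ∈ t • L) (hy : y ∈ polarBody L) :
    ⟪x, y⟫_ℝ ≤ t := by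
  obtain ⟨l, hl, rfl⟩ := hx
  rw [real_inner_smul_left]
  calc t * ⟪l, y⟫_ℝ ≤ t * 1 := mul_le_mul_of_nonneg_left (hy l hl) ht
    _ = t := mul_one t

omit [FiniteDimensional ℝ E] in
lemma abs_inner_le_of_mem_smul (hL : IsSymBody L) (ht : 0 < t) {x y : E} (hx : x ∈ t • L)
    (hy : y ∈ polarBody L) : |⟪x, y⟫_ℝ| ≤ t := by
  refine abs_le.mpr ⟨?_, inner_le_of_mem_smul ht.le hx hy⟩
  have := inner_le_of_mem_smul ht.le ((hL.smul ht.ne').neg_mem hx) hy
  rw [inner_neg_left] at this
  linarith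

/-- Separation from `C + t • L` by a functional in the polar of `L`. -/
lemma exists_sep (hL : IsSymBody L) (ht : 0 < t) {C : Set E} (hC : Convex ℝ C)
    (hCc : IsCompact C) {x : E} (hx : x ∉ C + t • L) :
    ∃ y ∈ polarBody L, ∀ c ∈ C, ⟪c, y⟫_ℝ + t ≤ ⟪x, y⟫_ℝ := by
  rcases C.eq_empty_or_nonempty with hCe | ⟨c₀, hc₀⟩
  · exact ⟨0, hL.polar.zero_mem, by simp [hCe]⟩
  obtain ⟨f, u, hfu, hux⟩ := geometric_hahn_banach_closed_point
    (hC.add (hL.convex.smul t)) (hCc.add (hL.compact.smul t)).isClosed hx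
  set y₀ : E := (InnerProductSpace.toDual ℝ E).symm f with hy₀
  have happ : ∀ v, ⟪v, y₀⟫_ℝ = f v := fun v => by
    rw [real_inner_comm]; exact InnerProductSpace.toDual_symm_apply
  obtain ⟨l₀, hl₀, hmax⟩ := hL.compact.exists_isMaxOn ⟨0, hL.zero_mem⟩
    (f := fun v => ⟪v, y₀⟫_ℝ) (by fun_prop)
  have hmax' : ∀ v ∈ L, ⟪v, y₀⟫_ℝ ≤ ⟪l₀, y₀⟫_ℝ := fun v hv => hmax hv
  have hsep : ∀ c ∈ C, ∀ l ∈ L, ⟪c, y₀⟫_ℝ + t * ⟪l, y₀⟫_ℝ < ⟪x, y₀⟫_ℝ := by
    intro c hc l hl
    have := (hfu (c + t • l) (Set.add_mem_add hc (Set.smul_mem_smul_set hl))).trans hux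
    rwa [← happ, ← happ, inner_add_left, real_inner_smul_left] at this
  have hy₀ne : y₀ ≠ 0 := by
    intro h0
    have := hsep c₀ hc₀ 0 hL.zero_mem
    simp [h0] at this
  have hMpos : 0 < ⟪l₀, y₀⟫_ℝ := by
    obtain ⟨r, hr, hball⟩ := hL.exists_ball
    have hn : 0 < ‖y₀‖ := norm_pos_iff.mpr hy₀ne
    have hmem : (r / ‖y₀‖) • y₀ ∈ L := by
      apply hball
      rw [mem_closedBall, dist_zero_right, norm_smul, Real.norm_eq_abs,
        abs_of_pos (by positivity), div_mul_cancel₀ _ hn.ne']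
    refine lt_of_lt_of_le ?_ (hmax' _ hmem)
    rw [real_inner_smul_left, real_inner_self_eq_norm_sq]
    positivity
  refine ⟨(⟪l₀, y₀⟫_ℝ)⁻¹ • y₀, ?_, ?_⟩
  · intro v hv
    rw [real_inner_smul_right, inv_mul_le_iff₀ hMpos, mul_one]
    exact hmax' v hv
  · intro c hc
    have := (hsep c hc l₀ hl₀).le
    rw [real_inner_smul_right, real_inner_smul_right]
    have key : t = (⟪l₀, y₀⟫_ℝ)⁻¹ * (t * ⟪l₀, y₀⟫_ℝ) := by field_simp
    rw [key, ← mul_add]
    exact mul_le_mul_of_nonneg_left this (inv_nonneg.mpr hMpos.le)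

/-- Membership in `t • L` through the polar (bipolar theorem). -/
lemma mem_smul_iff_polar (hL : IsSymBody L) (ht : 0 < t) {x : E} :
    x ∈ t • L ↔ ∀ y ∈ polarBody L, ⟪x, y⟫_ℝ ≤ t := by
  refine ⟨fun hx y hy => inner_le_of_mem_smul ht.le hx hy, fun h => ?_⟩
  by_contra hx
  obtain ⟨f, u, hfu, hux⟩ := geometric_hahn_banach_closed_point
    (hL.convex.smul t) (hL.compact.smul t).isClosed hx
  set y₀ : E := (InnerProductSpace.toDual ℝ E).symm f with hy₀
  have happ : ∀ v, ⟪v, y₀⟫_ℝ = f v := fun v => by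
    rw [real_inner_comm]; exact InnerProductSpace.toDual_symm_apply
  have hu : 0 < u := by
    have := hfu (t • (0 : E)) (Set.smul_mem_smul_set hL.zero_mem)
    simpa using this
  have hy : (t / u) • y₀ ∈ polarBody L := by
    intro l hl
    have := (hfu (t • l) (Set.smul_mem_smul_set hl)).le
    rw [map_smul, smul_eq_mul] at this
    rw [real_inner_smul_right, happ, div_mul_eq_mul_div, div_le_one hu]
    exact this
  have := h _ hy
  rw [real_inner_smul_right, happ, div_mul_eq_mul_div, div_le_iff₀ hu] at this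
  have h2 : t * u < t * f x := mul_lt_mul_of_pos_left hux ht
  linarith

lemma polar_polar (hL : IsSymBody L) : polarBody (polarBody L) = L := by
  ext x
  have h := mem_smul_iff_polar hL one_pos (x := x)
  rw [one_smul] at h
  rw [h]
  simp only [polarBody, Set.mem_setOf_eq]
  exact forall₂_congr fun y _ => by rw [real_inner_comm]

omit [FiniteDimensional ℝ E] in
lemma polar_smul (ht : t ≠ 0) : polarBody (t • K) = t⁻¹ • polarBody K := by
  ext y
  rw [Set.mem_smul_set_iff_inv_smul_mem₀ (inv_ne_zero ht), inv_inv]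
  simp only [polarBody, Set.mem_setOf_eq]
  constructor
  · intro h x hx
    have := h (t • x) (Set.smul_mem_smul_set hx)
    rwa [real_inner_smul_left, ← real_inner_smul_right] at this
  · rintro h _ ⟨x, hx, rfl⟩
    have := h x hx
    rwa [real_inner_smul_right, ← real_inner_smul_left] at this

/-! ### Covering numbers -/

omit [InnerProductSpace ℝ E] [FiniteDimensional ℝ E] in
lemma covNum_le {S : Finset E} (h : A ⊆ (S : Set E) + B) : covNum A B ≤ S.card :=
  Nat.sInf_le ⟨S, rfl, h⟩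

omit [FiniteDimensional ℝ E] in
lemma exists_cover (hA : IsCompact A) (hB : IsSymBody B) :
    ∃ S : Finset E, A ⊆ (S : Set E) + B := by
  obtain ⟨S, hS⟩ := hA.elim_finite_subcover (fun c : E => c +ᵥ interior B)
    (fun c => isOpen_interior.vadd c)
    (fun x _ => Set.mem_iUnion.mpr ⟨x, ⟨0, hB.zero_mem_interior, by simp⟩⟩)
  refine ⟨S, fun x hx => ?_⟩
  obtain ⟨c, hc, b, hb, rfl⟩ : ∃ c ∈ S, x ∈ c +ᵥ interior B := by
    simpa using hS hx
  exact Set.add_mem_add hc (interior_subset hb)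

omit [FiniteDimensional ℝ E] in
/-- The infimum in `covNum` is attained. -/
lemma covNum_spec (hA : IsCompact A) (hB : IsSymBody B) :
    ∃ S : Finset E, S.card = covNum A B ∧ A ⊆ (S : Set E) + B := by
  obtain ⟨S, hS⟩ := exists_cover hA hB
  exact Nat.sInf_mem (s := {m : ℕ | ∃ S : Finset E, S.card = m ∧ A ⊆ (S : Set E) + B})
    ⟨S.card, S, rfl, hS⟩

omit [FiniteDimensional ℝ E] in
lemma covNum_pos (hA : IsCompact A) (hne : A.Nonempty) (hB : IsSymBody B) :
    1 ≤ covNum A B := by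
  obtain ⟨S, hcard, hS⟩ := covNum_spec hA hB
  obtain ⟨a, ha⟩ := hne
  obtain ⟨c, hc, -⟩ := hS ha
  have : 0 < S.card := Finset.card_pos.mpr ⟨c, hc⟩
  omega

omit [FiniteDimensional ℝ E] in
/-- A family in `A`, pairwise separated by more than `2c` on `P`, is no larger than a cover of
`A` by translates of `c • P°`. -/
lemma card_le_covNum {P : Set E} (hP : IsSymBody P) (hA : IsCompact A) {c : ℝ} (hc : 0 < c)
    (hB : IsSymBody (c • polarBody P)) {ι : Type*} [Fintype ι] (Y : ι → E) (hY : ∀ i, Y i ∈ A)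
    (hsep : ∀ i j, i ≠ j → ∃ x ∈ P, 2 * c < |⟪x, Y i - Y j⟫_ℝ|) :
    Fintype.card ι ≤ covNum A (c • polarBody P) := by
  classical
  obtain ⟨S, hcard, hS⟩ := covNum_spec hA hB
  have hmem : ∀ i, ∃ s, s ∈ S ∧ Y i - s ∈ c • polarBody P := by
    intro i
    obtain ⟨s, hs, b, hb, hsb⟩ := hS (hY i)
    refine ⟨s, hs, ?_⟩
    rw [← hsb]
    simpa using hb
  choose f hf hfB using hmem
  rw [← hcard]
  refine Finset.card_le_card_of_injOn (s := Finset.univ) f (fun i _ => hf i) ?_
  intro i _ j _ hij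
  by_contra hne
  obtain ⟨x, hx, hlt⟩ := hsep i j hne
  obtain ⟨p, hp, hpe⟩ := hfB i
  obtain ⟨q, hq, hqe⟩ := hfB j
  have hpe' : c • p = Y i - f i := hpe
  have hqe' : c • q = Y j - f j := hqe
  have hd : Y i - Y j = c • (p - q) := by rw [smul_sub, hpe', hqe', hij]; abel
  rw [hd, real_inner_smul_right, abs_mul, abs_of_pos hc, inner_sub_right] at hlt
  have habs : ∀ v ∈ polarBody P, |⟪x, v⟫_ℝ| ≤ 1 := fun v hv => by
    refine abs_le.mpr ⟨?_, hv x hx⟩
    have := hv (-x) (hP.neg_mem hx)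
    rw [inner_neg_left] at this
    linarith
  have h1 := habs p hp
  have h2 := habs q hq
  have h3 : |⟪x, p⟫_ℝ - ⟪x, q⟫_ℝ| ≤ 2 := (abs_sub _ _).trans (by linarith)
  nlinarith

omit [FiniteDimensional ℝ E] in
lemma covNum_smul_le {a : ℝ} (hA : IsCompact A) (hB : IsSymBody B) :
    covNum (a • A) (a • B) ≤ covNum A B := by
  classical
  obtain ⟨S, hcard, hS⟩ := covNum_spec hA hB
  refine (covNum_le (S := S.image (a • ·)) ?_).trans ((Finset.card_image_le).trans hcard.le)
  intro x hx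
  obtain ⟨v, hv, rfl⟩ := hx
  obtain ⟨s, hs, b, hb, rfl⟩ := hS hv
  refine ⟨a • s, by simpa using ⟨s, hs, rfl⟩, a • b, Set.smul_mem_smul_set hb, ?_⟩
  exact (smul_add a s b).symm

omit [FiniteDimensional ℝ E] in
lemma covNum_smul {a : ℝ} (ha : a ≠ 0) (hA : IsCompact A) (hB : IsSymBody B) :
    covNum (a • A) (a • B) = covNum A B := by
  refine le_antisymm (covNum_smul_le hA hB) ?_
  have := covNum_smul_le (a := a⁻¹) (hA.smul a) (hB.smul ha)
  rwa [inv_smul_smul₀ ha, inv_smul_smul₀ ha] at this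

end Vale.Agent.P126
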