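import Vale.Agent.P126.TiltStage

/-!
# Boosted tilts: gains multiply with few rounded functionals (P126)

A gain of size `g` for a base exponent `v` and a point `i` is a functional `z` whose tilt by `g`
raises the free energy by at most `g (u z i - θ)`. `M` gains of size `g` along the bases they
create give, after rounding their average to one functional, a gain of size `M g` at the cost `2ρ`
in `θ`. Hence, after `D` levels, all points but one for each of `(n+1)^(DM)` bases are rare for one
of `n` functionals.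
-/

open scoped Pointwise InnerProductSpace
open Set Metric

namespace Vale.Agent.P126.Boost

section Abstract

variable {ι κ : Type*} [Fintype ι]

/-- The free energy of an exponent. -/
noncomputable def lse (v : ι → ℝ) : ℝ := Real.log (∑ x, Real.exp (v x))

/-- Some functional gains `g θ` at `i` over the base `v`. -/
def Gain (u : κ → ι → ℝ) (g θ : ℝ) (v : ι → ℝ) (i : ι) : Prop :=
  ∃ z, lse (fun x => v x + g * u z x) - lse v ≤ g * u z i - θ * g

/-- The functional of an optional index. -/
def opt (u : κ → ι → ℝ) : Option κ → ι → ℝ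
  | none => fun _ => 0
  | some z => u z

/-- The base exponent selected by `j` rows of optional indices. -/
def base (u : κ → ι → ℝ) (s : ℝ) {M : ℕ} : (j : ℕ) → (Fin j → Fin M → Option κ) → ι → ℝ
  | 0, _ => fun _ => 0
  | j + 1, f => fun x =>
      s * (M : ℝ) ^ j * (∑ m, opt u (f (Fin.last j) m) x) + base u s j (fun a => f a.castSucc) x

variable [Nonempty κ] {u : κ → ι → ℝ} {s ρ θ : ℝ} {M : ℕ}

lemma boost_levels (hM : 1 ≤ M) (hs : 0 ≤ s)
    (hround : ∀ z : Fin M → κ, ∃ y, ∀ x, |(∑ m, u (z m) x) / M - u y x| ≤ ρ) (i : ι) :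
    ∀ (j : ℕ) (v : ι → ℝ), (∀ f, Gain u s θ (fun x => v x + base u s (M := M) j f x) i) →
      Gain u (s * (M : ℝ) ^ j) (θ - 2 * ρ * j) v i := by
  classical
  haveI : Nonempty ι := ⟨i⟩
  intro j
  induction j with
  | zero =>
    intro v h
    simpa [base] using h (fun a => a.elim0)
  | succ j ih =>
    intro v h
    set g := s * (M : ℝ) ^ j with hg
    set θ' := θ - 2 * ρ * j with hθ'
    let S : ℕ → (Fin M → κ) → ι → ℝ := fun l z x =>
      ∑ m : Fin M, if (m : ℕ) < l then u (z m) x else 0
    have key : ∀ l ≤ M, ∃ z : Fin M → κ,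
        lse (fun x => v x + g * S l z x) - lse v ≤ g * S l z i - θ' * g * l := by
      intro l
      induction l with
      | zero => intro _; exact ⟨fun _ => Classical.arbitrary κ, by simp [S]⟩
      | succ l ihl =>
        intro hl
        obtain ⟨z, hz⟩ := ihl (by omega)
        obtain ⟨y, hy⟩ := ih (fun x => v x + g * S l z x) (fun f => by
          have := h (Fin.snoc f fun m => if (m : ℕ) < l then some (z m) else none)
          have e : (fun x => v x + base u s (j + 1)
              (Fin.snoc f fun m => if (m : ℕ) < l then some (z m) else none) x) =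
              fun x => v x + g * S l z x + base u s j f x := by
            funext x
            simp only [base, Fin.snoc_last, Fin.snoc_castSucc, S, hg]
            rw [← add_assoc]
            congr 3
            refine Finset.sum_congr rfl fun m _ => ?_
            split_ifs <;> rfl
          rwa [e] at this)
        refine ⟨Function.update z ⟨l, by omega⟩ y, ?_⟩
        have e : ∀ x, S (l + 1) (Function.update z ⟨l, by omega⟩ y) x = S l z x + u y x := by
          intro x
          have : ∀ m : Fin M, (if (m : ℕ) < l + 1 then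
              u (Function.update z ⟨l, by omega⟩ y m) x else 0) =
              (if (m : ℕ) < l then u (z m) x else 0) +
                (if m = ⟨l, by omega⟩ then u y x else 0) := by
            intro m
            by_cases hm : m = ⟨l, by omega⟩
            · subst hm; simp
            · have : (m : ℕ) ≠ l := fun h => hm (Fin.ext h)
              rw [Function.update_of_ne hm, if_neg hm, add_zero]
              split_ifs <;> first | rfl | omega
          simp only [S, this, Finset.sum_add_distrib, Finset.sum_ite_eq', Finset.mem_univ, if_true]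
        simp only [e, mul_add, ← add_assoc]
        push_cast
        rw [mul_add, mul_one]
        linarith
    obtain ⟨z, hz⟩ := key M le_rfl
    obtain ⟨y, hy⟩ := hround z
    have hMR : (0 : ℝ) < M := by exact_mod_cast hM
    have hS : ∀ x, S M z x = ∑ m, u (z m) x := fun x =>
      Finset.sum_congr rfl fun m _ => if_pos m.2
    simp only [hS] at hz
    refine ⟨y, ?_⟩
    set G := s * (M : ℝ) ^ (j + 1) with hG
    have hGg : G = g * M := by rw [hG, hg, pow_succ]; ring
    have hG0 : 0 ≤ G := by rw [hG]; positivity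
    have hxy : ∀ x, |g * (∑ m, u (z m) x) - G * u y x| ≤ G * ρ := by
      intro x
      have e : g * (∑ m, u (z m) x) - G * u y x = G * ((∑ m, u (z m) x) / M - u y x) := by
        rw [hGg]; field_simp
      rw [e, abs_mul, abs_of_nonneg hG0]
      exact mul_le_mul_of_nonneg_left (hy x) hG0
    have hsum : lse (fun x => v x + G * u y x) ≤
        G * ρ + lse (fun x => v x + g * ∑ m, u (z m) x) := by
      have h1 : 0 < ∑ x, Real.exp (v x + G * u y x) :=
        Finset.sum_pos (fun x _ => Real.exp_pos _) Finset.univ_nonempty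
      have h2 : 0 < ∑ x, Real.exp (v x + g * ∑ m, u (z m) x) :=
        Finset.sum_pos (fun x _ => Real.exp_pos _) Finset.univ_nonempty
      have h3 : ∑ x, Real.exp (v x + G * u y x) ≤
          Real.exp (G * ρ) * ∑ x, Real.exp (v x + g * ∑ m, u (z m) x) := by
        rw [Finset.mul_sum]
        refine Finset.sum_le_sum fun x _ => ?_
        rw [← Real.exp_add]
        exact Real.exp_le_exp.2 (by linarith [(abs_le.1 (hxy x)).1])
      have := Real.log_le_log h1 h3
      rwa [Real.log_mul (Real.exp_pos _).ne' h2.ne', Real.log_exp] at this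
    have hi := (abs_le.1 (hxy i)).2
    have : (θ - 2 * ρ * ((j + 1 : ℕ) : ℝ)) * G = θ' * g * M - 2 * (G * ρ) := by
      rw [hθ', hGg]; push_cast; ring
    linarith

/-- All but `(n+1)^(DM)` points are rare for one functional. -/
lemma boost_card [Fintype κ] [Nonempty ι] (hM : 1 ≤ M) (hs : 0 ≤ s)
    (hround : ∀ z : Fin M → κ, ∃ y, ∀ x, |(∑ m, u (z m) x) / M - u y x| ≤ ρ)
    (hunit : ∀ v i i', ¬ Gain u s θ v i → ¬ Gain u s θ v i' → i = i') (D : ℕ)
    (hbig : (Fintype.card κ : ℝ) * Real.exp (-((θ - 2 * ρ * D) * (s * (M : ℝ) ^ D))) ≤ 1 / 2) :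
    Fintype.card ι ≤ 2 * (Fintype.card κ + 1) ^ (M * D) := by
  classical
  set g := s * (M : ℝ) ^ D
  set t := θ - 2 * ρ * D
  let rare : κ → Finset ι := fun z => Finset.univ.filter fun i =>
    lse (fun x : ι => g * u z x) - lse (fun _ : ι => (0 : ℝ)) ≤ g * u z i - t * g
  let bad : (Fin D → Fin M → Option κ) → Finset ι := fun f => Finset.univ.filter fun i =>
    ¬ Gain u s θ (fun x => base u s D f x) i
  have hcover : (Finset.univ : Finset ι) ⊆
      Finset.univ.biUnion rare ∪ Finset.univ.biUnion bad := by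
    intro i _
    rw [Finset.mem_union]
    by_cases h : ∀ f, Gain u s θ (fun x => base u s (M := M) D f x) i
    · left
      obtain ⟨z, hz⟩ := boost_levels hM hs hround i D (fun _ => 0) (by simpa using h)
      simp only [zero_add] at hz
      exact Finset.mem_biUnion.2 ⟨z, Finset.mem_univ _, by simpa [rare] using hz⟩
    · right
      push Not at h
      obtain ⟨f, hf⟩ := h
      exact Finset.mem_biUnion.2 ⟨f, Finset.mem_univ _, by simpa [bad] using hf⟩
  have hrare : ∀ z, ((rare z).card : ℝ) ≤ (Fintype.card ι : ℝ) * Real.exp (-(t * g)) := by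
    intro z
    set S := ∑ x, Real.exp (g * u z x)
    have hSpos : 0 < S := Finset.sum_pos (fun x _ => Real.exp_pos _) Finset.univ_nonempty
    have hN : (0 : ℝ) < Fintype.card ι := by exact_mod_cast Fintype.card_pos
    have h0 : lse (fun _ : ι => (0 : ℝ)) = Real.log (Fintype.card ι) := by simp [lse]
    have hmem : ∀ i ∈ rare z,
        S * (Real.exp (t * g) / Fintype.card ι) ≤ Real.exp (g * u z i) := by
      intro i hi
      simp only [rare, Finset.mem_filter] at hi
      have h1 := hi.2
      rw [h0] at h1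
      calc S * (Real.exp (t * g) / Fintype.card ι)
          = Real.exp (Real.log S + t * g - Real.log (Fintype.card ι)) := by
            rw [Real.exp_sub, Real.exp_add, Real.exp_log hSpos, Real.exp_log hN]; ring
        _ ≤ _ := Real.exp_le_exp.2 (by simp only [lse] at h1; linarith)
    have h2 : ((rare z).card : ℝ) * (S * (Real.exp (t * g) / Fintype.card ι)) ≤ S := by
      rw [← nsmul_eq_mul, ← Finset.sum_const]
      exact (Finset.sum_le_sum hmem).trans (Finset.sum_le_sum_of_subset_of_nonneg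
        (Finset.subset_univ _) fun x _ _ => (Real.exp_pos _).le)
    have h3 : ((rare z).card : ℝ) * (Real.exp (t * g) / Fintype.card ι) ≤ 1 := by
      refine le_of_mul_le_mul_left ?_ hSpos
      linarith
    rw [Real.exp_neg, ← div_eq_mul_inv, le_div_iff₀ (Real.exp_pos _)]
    rw [← mul_div_assoc, div_le_iff₀ hN, one_mul] at h3
    exact h3
  have hbad : ∀ f, (bad f).card ≤ 1 := fun f => Finset.card_le_one.2 fun a ha b hb =>
    hunit _ a b (Finset.mem_filter.1 ha).2 (Finset.mem_filter.1 hb).2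
  have hcount := (Finset.card_le_card hcover).trans (Finset.card_union_le _ _)
  have h2 : (Finset.univ.biUnion bad).card ≤ (Fintype.card κ + 1) ^ (M * D) := by
    refine (Finset.card_biUnion_le_card_mul _ _ _ fun f _ => hbad f).trans (le_of_eq ?_)
    simp [pow_mul]
  have h1 : ((Finset.univ.biUnion rare).card : ℝ) ≤ (Fintype.card ι : ℝ) / 2 := by
    calc ((Finset.univ.biUnion rare).card : ℝ) ≤ ∑ z, ((rare z).card : ℝ) := by
          exact_mod_cast Finset.card_biUnion_le
      _ ≤ ∑ _z : κ, (Fintype.card ι : ℝ) * Real.exp (-(t * g)) :=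
          Finset.sum_le_sum fun z _ => hrare z
      _ = (Fintype.card ι : ℝ) * ((Fintype.card κ : ℝ) * Real.exp (-(t * g))) := by simp; ring
      _ ≤ (Fintype.card ι : ℝ) * (1 / 2) := mul_le_mul_of_nonneg_left hbig (Nat.cast_nonneg _)
      _ = _ := by ring
  have h3 : (Fintype.card ι : ℝ) ≤ ((Finset.univ.biUnion rare).card : ℝ) +
      (((Fintype.card κ + 1) ^ (M * D) : ℕ) : ℝ) := by
    have := hcount.trans (Nat.add_le_add_left h2 _)
    exact_mod_cast this
  have h4 : (Fintype.card ι : ℝ) ≤ ((2 * (Fintype.card κ + 1) ^ (M * D) : ℕ) : ℝ) := by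
    push_cast at h3 ⊢
    linarith
  exact_mod_cast h4

end Abstract

section Scale

variable {E : Type*} [NormedAddCommGroup E] [InnerProductSpace ℝ E] [FiniteDimensional ℝ E]
variable {A L : Set E}

/-- Separated points at one scale: `M` units per level and `D` levels. -/
lemma separated_card (hL : IsSymBody L) {R : ℝ} (hR : 1 ≤ R)
    (hAL : A ⊆ R • L) {D : ℕ} {ρ : ℝ} (hρ : ρ * (64 * ((D : ℝ) + 1)) ≤ 1)
    {Z : Finset E} (hZ : IsNet A (polarBody L) ρ Z) {M : ℕ} (hM : 1 ≤ M)
    (hbig : 128 * R ^ 2 * (Real.log Z.card + 1) ≤ (M : ℝ) ^ D)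
    {G : Finset E} (hGA : ↑G ⊆ A)
    (hsep : ∀ x ∈ G, ∀ x' ∈ G, x ≠ x' → x - x' ∉ (1 / 2 : ℝ) • L) :
    G.card ≤ 2 * (Z.card + 1) ^ (M * D) := by
  classical
  rcases G.eq_empty_or_nonempty with rfl | hG
  · simp
  haveI : Nonempty G := hG.to_subtype
  obtain ⟨z₀, hz₀, -⟩ := hZ.near 0 hL.polar.zero_mem
  haveI : Nonempty Z := ⟨⟨z₀, hz₀⟩⟩
  let u : Z → G → ℝ := fun z x => ⟪(x : E), (z : E)⟫_ℝ
  set s : ℝ := 1 / (16 * R ^ 2) with hs
  have hR2 : 1 ≤ R ^ 2 := one_le_pow₀ hR
  have hspos : 0 < s := by positivity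
  have hround : ∀ z : Fin M → Z, ∃ y, ∀ x, |(∑ m, u (z m) x) / M - u y x| ≤ ρ := by
    intro z
    have hyD : ∑ m, (1 / (M : ℝ)) • (z m : E) ∈ polarBody L :=
      hL.polar.convex.sum_mem (fun _ _ => by positivity)
        (by simp [(show (M : ℝ) ≠ 0 by exact_mod_cast (by omega : M ≠ 0))])
        (fun m _ => hZ.subset (z m).2)
    obtain ⟨y, hy, hnear⟩ := hZ.near _ hyD
    refine ⟨⟨y, hy⟩, fun x => ?_⟩
    have := hnear x (hGA x.2)
    rw [inner_sub_right, inner_sum] at this
    simp only [real_inner_smul_right, ← Finset.mul_sum] at this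
    rwa [one_div_mul_eq_div] at this
  set θ : ℝ := 1 / 4 - 2 * ρ - 1 / 16 with hθ
  have hunit : ∀ v i i', ¬ Gain u s θ v i → ¬ Gain u s θ v i' → i = i' := by
    intro v
    let p : G → ℝ := fun _ => 1
    have hp : ∀ x, 0 < p x := fun _ => one_pos
    let w := Tilt.gibbs p v
    set c : E := ∑ x : G, w x • (x : E) with hc
    have key : ∀ i, ¬ Gain u s θ v i → ∀ y ∈ polarBody L, ⟪(i : E) - c, y⟫_ℝ ≤ 1 / 4 := by
      intro i hi y hy
      by_contra hlt
      push Not at hlt
      apply hi
      obtain ⟨z, hz, hnear⟩ := hZ.near y hy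
      refine ⟨⟨z, hz⟩, ?_⟩
      have hux : ∀ x : G, |u ⟨z, hz⟩ x| ≤ R := fun x =>
        abs_inner_le_of_mem_smul hL (by linarith) (hAL (hGA x.2)) (hZ.subset hz)
      have hmgf := Tilt.log_mgf_le (u := u ⟨z, hz⟩) (Tilt.gibbs_nonneg hp v) (Tilt.gibbs_sum hp v)
        hspos.le hux (by
          rw [hs, div_mul_eq_mul_div, div_le_one (by positivity)]; nlinarith)
      have hpos : 0 < ∑ x : G, Real.exp (v x) :=
        Finset.sum_pos (fun x _ => Real.exp_pos _) Finset.univ_nonempty
      have hpos' : 0 < ∑ x : G, Real.exp (v x + s * u ⟨z, hz⟩ x) :=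
        Finset.sum_pos (fun x _ => Real.exp_pos _) Finset.univ_nonempty
      have e : lse (fun x => v x + s * u ⟨z, hz⟩ x) - lse v =
          Real.log (∑ x, w x * Real.exp (s * u ⟨z, hz⟩ x)) := by
        simp only [lse, w, Tilt.gibbs, p, one_mul, div_mul_eq_mul_div, ← Finset.sum_div,
          ← Real.exp_add]
        rw [Real.log_div hpos'.ne' hpos.ne']
      rw [e]
      refine hmgf.trans ?_
      have hmean : ∑ x, w x * u ⟨z, hz⟩ x ≤ ⟪c, y⟫_ℝ + ρ := by
        rw [hc, sum_inner]
        calc ∑ x, w x * u ⟨z, hz⟩ x ≤ ∑ x, w x * (⟪(x : E), y⟫_ℝ + ρ) := by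
              refine Finset.sum_le_sum fun x _ => mul_le_mul_of_nonneg_left ?_
                (Tilt.gibbs_nonneg hp v x).le
              have := abs_le.1 (hnear x (hGA x.2))
              rw [inner_sub_right] at this
              show ⟪(x : E), z⟫_ℝ ≤ _
              linarith
          _ = _ := by
              simp only [mul_add, Finset.sum_add_distrib, ← Finset.sum_mul, w,
                Tilt.gibbs_sum hp v, one_mul, real_inner_smul_left]
      have hi' := abs_le.1 (hnear i (hGA i.2))
      rw [inner_sub_right] at hi'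
      rw [inner_sub_left] at hlt
      have h1 : s ^ 2 * R ^ 2 = s * (1 / 16) := by
        rw [hs]; field_simp
      rw [h1]
      have h2 : ∑ x, w x * u ⟨z, hz⟩ x + 1 / 16 ≤ u ⟨z, hz⟩ i - θ := by
        show _ ≤ ⟪(i : E), z⟫_ℝ - θ
        rw [hθ]; linarith
      have := mul_le_mul_of_nonneg_left h2 hspos.le
      linarith
    intro i i' hi hi'
    by_contra hne
    refine hsep i i.2 i' i'.2 (fun h => hne (Subtype.ext h)) ?_
    rw [mem_smul_iff_polar hL (by norm_num)]
    intro y hy
    have a := key i hi y hy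
    have b := key i' hi' (-y) (hL.polar.neg_mem hy)
    rw [inner_neg_right] at b
    rw [inner_sub_left] at a b ⊢
    linarith
  have hcard : 1 ≤ Z.card := Finset.card_pos.2 ⟨z₀, hz₀⟩
  have hl : 0 ≤ Real.log Z.card := Real.log_natCast_nonneg _
  have hgain : Real.log Z.card + 1 ≤ (θ - 2 * ρ * D) * (s * (M : ℝ) ^ D) := by
    have h1 : 1 / 8 ≤ θ - 2 * ρ * D := by rw [hθ]; nlinarith
    have h2 : 8 * (Real.log Z.card + 1) ≤ s * (M : ℝ) ^ D := by
      rw [hs, div_mul_eq_mul_div, le_div_iff₀ (by positivity)]; linarith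
    calc Real.log Z.card + 1 = 1 / 8 * (8 * (Real.log Z.card + 1)) := by ring
      _ ≤ _ := mul_le_mul h1 h2 (by linarith) (by linarith)
  have h := boost_card (u := u) hM hspos.le hround hunit D (by
    rw [Fintype.card_coe]
    calc (Z.card : ℝ) * Real.exp (-((θ - 2 * ρ * D) * (s * (M : ℝ) ^ D)))
        ≤ (Z.card : ℝ) * Real.exp (-(Real.log Z.card + 1)) :=
          mul_le_mul_of_nonneg_left (Real.exp_le_exp.2 (by linarith)) (Nat.cast_nonneg _)
      _ = Real.exp (-1) := by
          rw [neg_add, Real.exp_add, Real.exp_neg, Real.exp_log (by exact_mod_cast hcard)]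
          field_simp
      _ ≤ 1 / 2 := by
          rw [Real.exp_neg, one_div]
          gcongr
          linarith [Real.exp_one_gt_d9])
  simpa using h

/-- One scale: the logarithm of `N(A, L/2)` is `O(l ^ (1 + 1/D))` in that of the net. -/
lemma scale_bound_boost (hA : IsSymBody A) (hL : IsSymBody L) {R : ℝ} (hR : 1 ≤ R)
    (hAL : A ⊆ R • L) {D : ℕ} (hD : 1 ≤ D) {ρ : ℝ} (hρ : ρ * (64 * ((D : ℝ) + 1)) ≤ 1)
    (hρ0 : 0 ≤ ρ) {Z : Finset E} (hZ : IsNet A (polarBody L) ρ Z) :
    Real.log (covNum A ((1 / 2 : ℝ) • L)) ≤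
      2000 * D * R ^ 2 * (Real.log Z.card * Real.log Z.card ^ (1 / (D : ℝ))) := by
  classical
  obtain ⟨z₀, hz₀, -⟩ := hZ.near 0 hL.polar.zero_mem
  have hcard : 1 ≤ Z.card := Finset.card_pos.2 ⟨z₀, hz₀⟩
  set l := Real.log Z.card with hldef
  have hl : 0 ≤ l := Real.log_natCast_nonneg _
  rcases eq_or_lt_of_le hcard with h1 | h2
  · -- a single net point
    have hsub : A ⊆ (({0} : Finset E) : Set E) + (1 / 2 : ℝ) • L := by
      intro x hx
      refine ⟨0, by simp, x, (mem_smul_iff_polar hL (by norm_num)).mpr ?_, by simp⟩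
      intro y hy
      obtain ⟨z, hz, hzy⟩ := hZ.near y hy
      obtain ⟨z', hz', hz0⟩ := hZ.near 0 hL.polar.zero_mem
      obtain rfl : z = z' := Finset.card_le_one.mp h1.ge z hz z' hz'
      have a := abs_le.mp (hzy x hx)
      have b := abs_le.mp (hz0 x hx)
      rw [inner_sub_right] at a b
      rw [inner_zero_right] at b
      have : ρ * 64 ≤ 1 := by nlinarith [mul_nonneg hρ0 (Nat.cast_nonneg D : (0:ℝ) ≤ D)]
      linarith
    have := covNum_le hsub
    rw [Finset.card_singleton] at this
    exact (Real.log_nonpos (Nat.cast_nonneg _) (by exact_mod_cast this)).trans (by positivity)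
  set X := 128 * R ^ 2 * (l + 1) with hX
  have hR2 : 1 ≤ R ^ 2 := one_le_pow₀ hR
  have hX1 : 1 ≤ X := by rw [hX]; nlinarith
  have hDR : (0 : ℝ) < D := by exact_mod_cast hD
  set M := ⌈X ^ (1 / (D : ℝ))⌉₊ with hMdef
  have hXr : 1 ≤ X ^ (1 / (D : ℝ)) := Real.one_le_rpow hX1 (by positivity)
  have hM : 1 ≤ M := Nat.one_le_iff_ne_zero.2 (Nat.ceil_pos.2 (by linarith)).ne'
  have hMD : X ≤ (M : ℝ) ^ D := by
    refine le_trans (le_of_eq ?_) (pow_le_pow_left₀ (by positivity) (Nat.le_ceil (X ^ (1 / (D : ℝ)))) D)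
    rw [← Real.rpow_natCast, ← Real.rpow_mul (by linarith), one_div_mul_cancel hDR.ne', Real.rpow_one]
  set B := 2 * (Z.card + 1) ^ (M * D)
  have hsepB : ∀ G : Finset E, ↑G ⊆ A →
      (∀ x ∈ G, ∀ x' ∈ G, x ≠ x' → x - x' ∉ (1 / 2 : ℝ) • L) → G.card ≤ B :=
    fun G hGA hsep => separated_card hL hR hAL hρ hZ hM hMD hGA hsep
  have hcov : covNum A ((1 / 2 : ℝ) • L) ≤ B := by
    set S : Set ℕ := {m | ∃ G : Finset E, G.card = m ∧ ↑G ⊆ A ∧
      ∀ x ∈ G, ∀ x' ∈ G, x ≠ x' → x - x' ∉ (1 / 2 : ℝ) • L}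
    have hbd : BddAbove S := ⟨B, fun m ⟨G, hm, hGA, hG⟩ => hm ▸ hsepB G hGA hG⟩
    obtain ⟨G, hm, hGA, hG⟩ := Nat.sSup_mem (s := S) ⟨0, ∅, by simp⟩ hbd
    refine (covNum_le (S := G) ?_).trans (hsepB G hGA hG)
    intro x hx
    by_contra hnot
    have hxG : ∀ g ∈ G, x - g ∉ (1 / 2 : ℝ) • L := fun g hg h =>
      hnot ⟨g, hg, x - g, h, by simp⟩
    have hxmem : x ∉ G := fun h => hxG x h (by
      rw [sub_self]; exact (hL.smul (t := (1 / 2 : ℝ)) (by norm_num)).zero_mem)
    have : (insert x G).card ∈ S := by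
      refine ⟨insert x G, rfl, ?_, ?_⟩
      · rw [Finset.coe_insert]; exact Set.insert_subset hx hGA
      · intro a ha b hb hab
        rw [Finset.mem_insert] at ha hb
        rcases ha with rfl | ha <;> rcases hb with rfl | hb
        · exact absurd rfl hab
        · exact hxG b hb
        · intro h
          refine hxG a ha ?_
          rw [← neg_sub]
          exact (hL.smul (t := (1 / 2 : ℝ)) (by norm_num)).neg_mem h
        · exact hG a ha b hb hab
    have h1 := le_csSup hbd this
    rw [Finset.card_insert_of_notMem hxmem] at h1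
    omega
  have hpos := covNum_pos hA.compact ⟨0, hA.zero_mem⟩ (hL.smul (t := (1 / 2 : ℝ)) (by norm_num))
  have hlog := Real.log_le_log (by exact_mod_cast hpos) (Nat.cast_le (α := ℝ).2 hcov)
  have hn2 : (2 : ℝ) ≤ Z.card := by exact_mod_cast h2
  have hl2 : Real.log 2 ≤ l := Real.log_le_log (by norm_num) hn2
  have hlog2 : (0.6931471803 : ℝ) < Real.log 2 := Real.log_two_gt_d9
  have hn1 : Real.log ((Z.card : ℝ) + 1) ≤ 2 * l := by
    calc Real.log ((Z.card : ℝ) + 1) ≤ Real.log ((Z.card : ℝ) ^ 2) :=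
          Real.log_le_log (by positivity) (by nlinarith)
      _ = 2 * l := by rw [Real.log_pow]; norm_num [hldef]
  set P := l ^ (1 / (D : ℝ)) with hP
  have hinv1 : 1 / (D : ℝ) ≤ 1 := by
    rw [div_le_one hDR]; exact_mod_cast hD
  have hP0 : (1 : ℝ) / 2 ≤ P := by
    calc (1 : ℝ) / 2 = (1 / 2 : ℝ) ^ (1 : ℝ) := by rw [Real.rpow_one]
      _ ≤ (1 / 2 : ℝ) ^ (1 / (D : ℝ)) :=
          Real.rpow_le_rpow_of_exponent_ge (by norm_num) (by norm_num) hinv1
      _ ≤ P := Real.rpow_le_rpow (by norm_num) (by linarith) (by positivity)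
  have hXP : X ^ (1 / (D : ℝ)) ≤ 384 * R ^ 2 * P := by
    calc X ^ (1 / (D : ℝ)) ≤ (384 * R ^ 2 * l) ^ (1 / (D : ℝ)) :=
          Real.rpow_le_rpow (by linarith) (by rw [hX]; nlinarith) (by positivity)
      _ = (384 * R ^ 2) ^ (1 / (D : ℝ)) * P := Real.mul_rpow (by positivity) hl
      _ ≤ _ := by
          refine mul_le_mul_of_nonneg_right ?_ (by linarith)
          calc (384 * R ^ 2) ^ (1 / (D : ℝ)) ≤ (384 * R ^ 2) ^ (1 : ℝ) :=
                Real.rpow_le_rpow_of_exponent_le (by nlinarith) hinv1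
            _ = _ := Real.rpow_one _
  have hMle : (M : ℝ) ≤ 768 * R ^ 2 * P := by
    have := (Nat.ceil_lt_add_one (show 0 ≤ X ^ (1 / (D : ℝ)) by linarith)).le
    rw [← hMdef] at this
    linarith
  refine hlog.trans ?_
  simp only [B]
  push_cast
  rw [Real.log_mul (by norm_num) (by positivity), Real.log_pow]
  push_cast
  have hD1 : (1 : ℝ) ≤ D := by exact_mod_cast hD
  have h1 : (M : ℝ) * D * Real.log ((Z.card : ℝ) + 1) ≤ 768 * R ^ 2 * P * D * (2 * l) := by
    gcongr
    exact Real.log_nonneg (by linarith)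
  have h3 : l ≤ 2 * (D * R ^ 2 * (l * P)) := by
    have e1 : l ≤ 2 * (l * P) := by nlinarith
    have e2 : 1 ≤ (D : ℝ) * R ^ 2 := one_le_mul_of_one_le_of_one_le hD1 hR2
    nlinarith [mul_le_mul_of_nonneg_right e2 (mul_nonneg hl (by linarith : (0:ℝ) ≤ P))]
  nlinarith

end Scale

end Vale.Agent.P126.Boost
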