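import Vale.Agent.P126.TiltScale

/-!
# Linear duality with a small power of the logarithm in the scale (P126)
-/

open scoped Pointwise InnerProductSpace
open Set Metric

namespace Vale.Agent.P126.Tilt

variable {E : Type*} [NormedAddCommGroup E] [InnerProductSpace ℝ E] [FiniteDimensional ℝ E]
variable {K L : Set E}

lemma geom_tail {x : ℝ} (hx0 : 0 ≤ x) (hx : x ≤ 1 / 2) (q i₀ : ℕ) :
    ∑ i ∈ Finset.range q, (if i₀ < i then x ^ (i - i₀) else 0) ≤ 2 * x := by
  rw [← Finset.sum_filter,
    show (Finset.range q).filter (fun i => i₀ < i) = Finset.Ico (i₀ + 1) q by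
      ext i; simp [Finset.mem_Ico]; omega,
    Finset.sum_Ico_eq_sum_range]
  have : ∀ m : ℕ, x ^ (i₀ + 1 + m - i₀) = x * x ^ m := by
    intro m
    rw [show i₀ + 1 + m - i₀ = m + 1 by omega, pow_succ']
  rw [Finset.sum_congr rfl (fun m _ => this m), ← Finset.mul_sum]
  have hsum := (summable_geometric_of_lt_one hx0 (by linarith)).sum_le_tsum
    (Finset.range (q - (i₀ + 1))) (fun i _ => by positivity)
  rw [tsum_geometric_of_lt_one hx0 (by linarith)] at hsum
  have h2 : (1 - x)⁻¹ ≤ 2 := by rw [inv_le_comm₀ (by linarith) two_pos]; linarith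
  calc x * ∑ i ∈ Finset.range (q - (i₀ + 1)), x ^ i ≤ x * 2 :=
        mul_le_mul_of_nonneg_left (hsum.trans h2) hx0
    _ = 2 * x := mul_comm _ _

/-- Nets three ratios apart combine into separated points of `L°`. -/
lemma prod_card_le_ratio (hK : IsSymBody K) (hL : IsSymBody L) {ρ : ℝ} (hρ : 0 < ρ)
    (hρ64 : ρ ≤ 1 / 64) {M : ℕ} (hMρ : 1 / ρ ≤ M) (Z : ℕ → Finset E)
    (hZ : ∀ j, IsNet (K ∩ ((M : ℝ) ^ (j + 1)) • L) (polarBody L) (ρ * (M : ℝ) ^ j) (Z j))
    (r q : ℕ) :
    ∏ i : Fin q, (Z (r + 3 * i)).card ≤ covNum (polarBody L) ((ρ / 16) • polarBody K) := by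
  classical
  have hM64 : (64 : ℝ) ≤ M := le_trans (by rw [le_div_iff₀ hρ]; linarith) hMρ
  have hMpos : (0 : ℝ) < M := by linarith
  let sc : ℕ → ℝ := fun i => (M : ℝ) ^ (r + 3 * i)
  have hsc : ∀ i, 0 < sc i := fun i => by positivity
  set x0 : ℝ := 1 / (M : ℝ) ^ 3 with hx0
  have hx0nn : 0 ≤ x0 := by positivity
  have hx0half : x0 ≤ 1 / 2 := by
    rw [hx0, div_le_div_iff₀ (by positivity) two_pos]
    nlinarith [pow_le_pow_left₀ (by norm_num) hM64 3]
  let Y : (∀ i : Fin q, {z : E // z ∈ Z (r + 3 * i)}) → E :=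
    fun T => ∑ i : Fin q, (1 / (2 * sc i)) • (T i : E)
  have hYD : ∀ T, Y T ∈ polarBody L := by
    intro T x hx
    simp only [Y, inner_sum, real_inner_smul_right]
    have hterm : ∀ i : Fin q, 1 / (2 * sc i) * ⟪x, (T i : E)⟫_ℝ ≤ 1 / 2 * x0 ^ (i : ℕ) := by
      intro i
      have h1 : ⟪x, (T i : E)⟫_ℝ ≤ 1 := (hZ _).subset (T i).2 x hx
      have h2 : ((M : ℝ) ^ 3) ^ (i : ℕ) ≤ sc i := by
        simp only [sc]
        rw [← pow_mul]
        exact pow_le_pow_right₀ (by linarith) (by omega)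
      calc 1 / (2 * sc i) * ⟪x, (T i : E)⟫_ℝ ≤ 1 / (2 * sc i) * 1 :=
            mul_le_mul_of_nonneg_left h1 (by have := hsc i; positivity)
        _ ≤ 1 / (2 * ((M : ℝ) ^ 3) ^ (i : ℕ)) := by rw [mul_one]; gcongr
        _ = _ := by rw [hx0, div_pow, one_pow]; ring
    refine (Finset.sum_le_sum fun i _ => hterm i).trans ?_
    rw [Fin.sum_univ_eq_sum_range (fun i => 1 / 2 * x0 ^ i), ← Finset.mul_sum]
    have hsum := (summable_geometric_of_lt_one hx0nn (by linarith)).sum_le_tsum
      (Finset.range q) (fun i _ => by positivity)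
    rw [tsum_geometric_of_lt_one hx0nn (by linarith)] at hsum
    have : (1 - x0)⁻¹ ≤ 2 := by rw [inv_le_comm₀ (by linarith) two_pos]; linarith
    linarith
  have hsep : ∀ T T', T ≠ T' → ∃ x ∈ K, 2 * (ρ / 16) < |⟪x, Y T - Y T'⟫_ℝ| := by
    intro T T' hne
    obtain ⟨i₁, hi₁⟩ := Function.ne_iff.mp hne
    obtain ⟨i₀, hi₀, hmin⟩ := Finset.exists_min_image
      (Finset.univ.filter fun i => T i ≠ T' i) (fun i : Fin q => (i : ℕ)) ⟨i₁, by simpa using hi₁⟩
    have hne₀ : T i₀ ≠ T' i₀ := (Finset.mem_filter.mp hi₀).2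
    obtain ⟨x, ⟨hxK, hxL⟩, hlt⟩ := (hZ (r + 3 * i₀)).sep _ (T i₀).2 _ (T' i₀).2
      (fun h => hne₀ (Subtype.ext h))
    refine ⟨x, hxK, ?_⟩
    let g : Fin q → ℝ := fun i => 1 / (2 * sc i) * ⟪x, (T i : E) - (T' i : E)⟫_ℝ
    have hdiff : ⟪x, Y T - Y T'⟫_ℝ = ∑ i, g i := by
      simp only [Y, g, inner_sub_right, inner_sum, real_inner_smul_right, mul_sub,
        Finset.sum_sub_distrib]
    have hg0 : ρ / 2 < |g i₀| := by
      simp only [g, abs_mul]
      rw [abs_of_pos (by have := hsc i₀; positivity)]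
      have : ρ / 2 = 1 / (2 * sc i₀) * (ρ * sc i₀) := by
        have := (hsc i₀).ne'
        field_simp
      rw [this]
      exact mul_lt_mul_of_pos_left hlt (by have := hsc i₀; positivity)
    have hgt : ∀ i ∈ Finset.univ.erase i₀,
        |g i| ≤ if (i₀ : ℕ) < i then (M : ℝ) * x0 ^ ((i : ℕ) - i₀) else 0 := by
      intro i hi
      have hii : i ≠ i₀ := (Finset.mem_erase.mp hi).1
      by_cases heq : T i = T' i
      · simp only [g, heq, sub_self, inner_zero_right, mul_zero, abs_zero]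
        split <;> positivity
      · have hle : (i₀ : ℕ) ≤ i := hmin i (by simp [heq])
        have hlt' : (i₀ : ℕ) < i := lt_of_le_of_ne hle (fun h => hii (Fin.ext h.symm))
        rw [if_pos hlt']
        simp only [g, abs_mul, inner_sub_right]
        rw [abs_of_pos (by have := hsc i; positivity)]
        have hpos : 0 < (M : ℝ) ^ (r + 3 * (i₀ : ℕ) + 1) := by positivity
        have a := abs_inner_le_of_mem_smul hL hpos hxL ((hZ _).subset (T i).2)
        have b := abs_inner_le_of_mem_smul hL hpos hxL ((hZ _).subset (T' i).2)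
        have hscale : sc i = sc i₀ * ((M : ℝ) ^ 3) ^ ((i : ℕ) - i₀) := by
          simp only [sc]
          rw [← pow_mul, ← pow_add]
          congr 1; omega
        have hs0 := (hsc i₀).ne'
        calc 1 / (2 * sc i) * |⟪x, (T i : E)⟫_ℝ - ⟪x, (T' i : E)⟫_ℝ|
            ≤ 1 / (2 * sc i) * (2 * M * sc i₀) := by
              refine mul_le_mul_of_nonneg_left ((abs_sub _ _).trans ?_)
                (by have := hsc i; positivity)
              have e : (M : ℝ) ^ (r + 3 * (i₀ : ℕ) + 1) = M * sc i₀ := pow_succ' _ _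
              linarith
          _ = (M : ℝ) * x0 ^ ((i : ℕ) - i₀) := by
              rw [hscale, hx0, div_pow, one_pow]; field_simp
    have hMx : (M : ℝ) * (2 * x0) ≤ ρ / 16 := by
      have h1 : 1 ≤ (M : ℝ) * ρ := by rwa [div_le_iff₀ hρ] at hMρ
      rw [hx0, show (M : ℝ) * (2 * (1 / (M : ℝ) ^ 3)) = 2 / (M : ℝ) ^ 2 by field_simp,
        div_le_div_iff₀ (by positivity) (by norm_num)]
      nlinarith
    have hrest : |∑ i ∈ Finset.univ.erase i₀, g i| ≤ ρ / 16 := by
      calc |∑ i ∈ Finset.univ.erase i₀, g i| ≤ ∑ i ∈ Finset.univ.erase i₀, |g i| :=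
            Finset.abs_sum_le_sum_abs _ _
        _ ≤ ∑ i ∈ Finset.univ.erase i₀,
              (if (i₀ : ℕ) < i then (M : ℝ) * x0 ^ ((i : ℕ) - i₀) else 0) :=
            Finset.sum_le_sum hgt
        _ ≤ ∑ i : Fin q, (if (i₀ : ℕ) < i then (M : ℝ) * x0 ^ ((i : ℕ) - i₀) else 0) :=
            Finset.sum_le_sum_of_subset_of_nonneg (Finset.erase_subset _ _)
              (fun i _ _ => by split <;> positivity)
        _ = (M : ℝ) * ∑ i ∈ Finset.range q,
              (if (i₀ : ℕ) < i then x0 ^ (i - i₀) else 0) := by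
            rw [Fin.sum_univ_eq_sum_range
              (fun i : ℕ => if (i₀ : ℕ) < i then (M : ℝ) * x0 ^ (i - i₀) else 0),
              Finset.mul_sum]
            exact Finset.sum_congr rfl fun i _ => by split <;> ring
        _ ≤ (M : ℝ) * (2 * x0) :=
            mul_le_mul_of_nonneg_left (geom_tail hx0nn hx0half q i₀) hMpos.le
        _ ≤ ρ / 16 := hMx
    rw [hdiff, ← Finset.add_sum_erase _ _ (Finset.mem_univ i₀)]
    have h := abs_sub_abs_le_abs_sub (g i₀) (-(∑ i ∈ Finset.univ.erase i₀, g i))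
    rw [abs_neg, sub_neg_eq_add] at h
    linarith
  have := card_le_covNum hK hL.polar.compact (by positivity : (0 : ℝ) < ρ / 16)
    (hK.polar.smul (by positivity)) Y hYD hsep
  simpa [Fintype.card_pi] using this

lemma sum_residues_three (f : ℕ → ℝ) (q : ℕ) :
    ∑ j ∈ Finset.range (3 * q), f j =
      ∑ r ∈ Finset.range 3, ∑ i ∈ Finset.range q, f (r + 3 * i) := by
  rw [Finset.sum_comm]
  induction q with
  | zero => simp
  | succ q ih =>
    rw [Finset.sum_range_succ, ← ih, show 3 * (q + 1) = 3 * q + 3 by ring,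
      Finset.sum_range_add]
    congr 1
    exact Finset.sum_congr rfl fun r _ => by rw [add_comm]

omit [FiniteDimensional ℝ E] in
lemma isNet_scale {A D : Set E} {s d : ℝ} (hs : 0 < s) {Z : Finset E} (h : IsNet A D (d * s) Z) :
    IsNet (s⁻¹ • A) D d Z := by
  refine ⟨h.subset, fun z hz z' hz' hne => ?_, fun y hy => ?_⟩
  · obtain ⟨x, hx, hlt⟩ := h.sep z hz z' hz' hne
    refine ⟨s⁻¹ • x, Set.smul_mem_smul_set hx, ?_⟩
    rw [real_inner_smul_left, abs_mul, abs_of_pos (inv_pos.2 hs), lt_inv_mul_iff₀ hs]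
    linarith
  · obtain ⟨z, hz, hnear⟩ := h.near y hy
    refine ⟨z, hz, ?_⟩
    rintro _ ⟨x, hx, rfl⟩
    rw [real_inner_smul_left, abs_mul, abs_of_pos (inv_pos.2 hs), inv_mul_le_iff₀ hs]
    linarith [hnear x hx]

/-- Linear duality once the scale beats a small power of the logarithm. -/
theorem tilt_duality (hK : IsSymBody K) (hL : IsSymBody L) {n : ℕ} (hn : 1 ≤ n) {a : ℝ}
    (ha : 3000000000000000 * n *
      (1 + Real.log (covNum (polarBody L) (a⁻¹ • polarBody K))) ^ (1 / (n : ℝ)) ≤ a) :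
    Real.log (covNum K L) ≤ 12 * n * Real.log (covNum (polarBody L) (a⁻¹ • polarBody K)) := by
  classical
  set k := Real.log (covNum (polarBody L) (a⁻¹ • polarBody K)) with hk
  have hk0 : 0 ≤ k := Real.log_natCast_nonneg _
  have hnR : (1 : ℝ) ≤ n := by exact_mod_cast hn
  have hroot : 1 ≤ (1 + k) ^ (1 / (n : ℝ)) := Real.one_le_rpow (by linarith) (by positivity)
  have ha1 : 3000000000000000 ≤ a := by
    refine le_trans ?_ ha
    nlinarith [mul_le_mul hnR hroot zero_le_one (by linarith : (0 : ℝ) ≤ n)]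
  have hapos : 0 < a := by linarith
  set ρ := 16 / a with hρdef
  have hρ : 0 < ρ := by positivity
  have hρ64 : ρ ≤ 1 / 64 := by rw [hρdef, div_le_div_iff₀ hapos (by norm_num)]; linarith
  set M := ⌈1 / ρ⌉₊ with hMdef
  have hMρ : 1 / ρ ≤ M := Nat.le_ceil _
  have hM64 : (64 : ℝ) ≤ M := le_trans (by rw [le_div_iff₀ hρ]; linarith) hMρ
  have hMpos : (0 : ℝ) < M := by linarith
  have hM1 : 1 ≤ M := by exact_mod_cast (show (1 : ℝ) ≤ M by linarith)
  have hMle : (M : ℝ) ≤ 2 / ρ := by
    have h1 := (Nat.ceil_lt_add_one (show (0 : ℝ) ≤ 1 / ρ by positivity)).le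
    have h2 : 1 ≤ 1 / ρ := by rw [le_div_iff₀ hρ]; linarith
    have h3 : 2 / ρ = 1 / ρ + 1 / ρ := by ring
    rw [← hMdef] at h1
    linarith
  have hρa : ρ / 16 = a⁻¹ := by rw [hρdef]; field_simp
  set T := n + 3 with hT
  obtain ⟨r, hr, hball⟩ := hL.exists_ball
  obtain ⟨R, hR, hbd⟩ := hK.exists_bound
  obtain ⟨q, hq⟩ := pow_unbounded_of_one_lt (R / r) (show (1 : ℝ) < M by linarith)
  set J := 3 * q with hJ
  have hq' : R / r ≤ (M : ℝ) ^ J :=
    hq.le.trans (pow_le_pow_right₀ (by linarith) (by omega))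
  have htop : covNum K ((M : ℝ) ^ J • L) ≤ 1 := by
    refine (covNum_le (S := {(0 : E)}) ?_).trans (by simp)
    intro x hx
    refine ⟨0, by simp, x, ?_, by simp⟩
    rw [Set.mem_smul_set_iff_inv_smul_mem₀ (by positivity)]
    apply hball
    rw [mem_closedBall, dist_zero_right, norm_smul, Real.norm_eq_abs,
      abs_of_pos (by positivity), inv_mul_le_iff₀ (by positivity)]
    calc ‖x‖ ≤ R := hbd x hx
      _ = R / r * r := by field_simp
      _ ≤ _ := by gcongr
  have hA : ∀ j : ℕ, IsSymBody (K ∩ ((M : ℝ) ^ (j + 1)) • L) := fun j =>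
    hK.inter (hL.smul (by positivity))
  choose Z hZ using fun j : ℕ =>
    exists_net (hA j) hL.polar.compact (show 0 < ρ * (M : ℝ) ^ j by positivity)
  have hZpos : ∀ j, 1 ≤ (Z j).card := by
    intro j
    obtain ⟨z, hz, -⟩ := (hZ j).near 0 hL.polar.zero_mem
    exact Finset.card_pos.mpr ⟨z, hz⟩
  let l : ℕ → ℝ := fun j => Real.log (Z j).card
  have hl0 : ∀ j, 0 ≤ l j := fun j => Real.log_natCast_nonneg _
  have hclass : ∀ r q, ∑ i ∈ Finset.range q, l (r + 3 * i) ≤ k := by
    intro r q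
    have h := prod_card_le_ratio hK hL hρ hρ64 hMρ Z hZ r q
    rw [hρa] at h
    rw [← Fin.sum_univ_eq_sum_range (fun i => l (r + 3 * i))]
    simp only [l]
    rw [← Real.log_prod (fun (i : Fin q) _ => by
      exact_mod_cast (show (Z (r + 3 * (i : ℕ))).card ≠ 0 by have := hZpos (r + 3 * (i : ℕ)); omega))]
    refine Real.log_le_log (Finset.prod_pos fun i _ => by exact_mod_cast hZpos _) ?_
    exact_mod_cast h
  -- numerical condition on the tilts
  have hnum : ∀ j, (Real.log ((32 * M + 1) * (Z j).card : ℕ) + 1) * (32 * T * ρ) ^ T ≤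
      1 / (256 * (M : ℝ) ^ 2) := by
    intro j
    have hlj : l j ≤ k := by simpa using hclass j 1
    have h1 : Real.log ((32 * M + 1) * (Z j).card : ℕ) + 1 ≤ 68 / ρ * (1 + k) := by
      push_cast
      rw [Real.log_mul (by positivity) (by exact_mod_cast (hZpos j).trans_lt' Nat.zero_lt_one |>.ne')]
      have h2 := Real.log_le_self (show (0 : ℝ) ≤ 32 * M + 1 by positivity)
      have h3 : 32 * (M : ℝ) + 1 ≤ 66 / ρ := by
        have : 66 / ρ = 33 * (2 / ρ) := by ring
        nlinarith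
      have h4 : 2 ≤ 2 / ρ := by rw [le_div_iff₀ hρ]; linarith
      have h5 : 68 / ρ = 66 / ρ + 2 / ρ := by ring
      have h6 : 1 ≤ 68 / ρ := by linarith
      have h7 : l j = Real.log ((Z j).card : ℝ) := rfl
      nlinarith
    have h2 : 256 * (M : ℝ) ^ 2 ≤ 1024 / ρ ^ 2 := by
      have := pow_le_pow_left₀ hMpos.le hMle 2
      rw [div_pow] at this
      have e : 256 * (2 ^ 2 / ρ ^ 2) = 1024 / ρ ^ 2 := by ring
      linarith
    have h3 : 70000 * (32 * (T : ℝ)) ^ T * ρ ^ n * (1 + k) ≤ 1 := by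
      have hT4 : (32 : ℝ) * T ≤ 128 * n := by rw [hT]; push_cast; linarith
      have e1 : (32 * (T : ℝ)) ^ T ≤ (128 * n) ^ n * (128 ^ 3 * 8 ^ n) := by
        refine (pow_le_pow_left₀ (by positivity) hT4 T).trans ?_
        rw [hT, pow_add, mul_pow (128 : ℝ) (n : ℝ) 3]
        refine mul_le_mul_of_nonneg_left (mul_le_mul_of_nonneg_left ?_ (by norm_num)) (by positivity)
        calc (n : ℝ) ^ 3 ≤ ((2 : ℝ) ^ n) ^ 3 :=
              pow_le_pow_left₀ (by positivity) (by exact_mod_cast Nat.lt_two_pow_self.le) 3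
          _ = 8 ^ n := by rw [← pow_mul, mul_comm, pow_mul]; norm_num
      have e2 : (3000000000000000 * n) ^ n * (1 + k) ≤ a ^ n := by
        refine le_trans (le_of_eq ?_) (pow_le_pow_left₀ (by positivity) ha n)
        rw [mul_pow (3000000000000000 * (n : ℝ)) _ n, ← Real.rpow_natCast
          ((1 + k) ^ (1 / (n : ℝ))) n, ← Real.rpow_mul (by linarith),
          one_div_mul_cancel (by positivity), Real.rpow_one]
      have e3 : 70000 * ((128 * (n : ℝ)) ^ n * (128 ^ 3 * 8 ^ n)) * 16 ^ n * (1 + k) ≤ a ^ n := by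
        refine le_trans ?_ e2
        refine mul_le_mul_of_nonneg_right ?_ (by linarith)
        calc 70000 * ((128 * (n : ℝ)) ^ n * (128 ^ 3 * 8 ^ n)) * 16 ^ n
            = 146800640000 * (16384 * (n : ℝ)) ^ n := by
              rw [show (16384 : ℝ) = 128 * 8 * 16 by norm_num, mul_pow, mul_pow, mul_pow,
                mul_pow (128 : ℝ)]
              ring
          _ ≤ 146800640000 ^ n * (16384 * (n : ℝ)) ^ n := by
              refine mul_le_mul_of_nonneg_right ?_ (by positivity)
              exact le_self_pow₀ (by norm_num) (by omega)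
          _ ≤ _ := by
              rw [← mul_pow]
              refine pow_le_pow_left₀ (by positivity) ?_ n
              linarith
      calc 70000 * (32 * (T : ℝ)) ^ T * ρ ^ n * (1 + k)
          ≤ 70000 * ((128 * n) ^ n * (128 ^ 3 * 8 ^ n)) * ρ ^ n * (1 + k) := by gcongr
        _ = 70000 * ((128 * n) ^ n * (128 ^ 3 * 8 ^ n)) * 16 ^ n * (1 + k) / a ^ n := by
            rw [hρdef, div_pow]; ring
        _ ≤ 1 := by rw [div_le_one (by positivity)]; exact e3
    rw [le_div_iff₀ (by positivity)]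
    calc (Real.log ((32 * M + 1) * (Z j).card : ℕ) + 1) * (32 * T * ρ) ^ T * (256 * (M : ℝ) ^ 2)
        ≤ 68 / ρ * (1 + k) * (32 * T * ρ) ^ T * (1024 / ρ ^ 2) := by gcongr
      _ = 69632 * (32 * (T : ℝ)) ^ T * ρ ^ n * (1 + k) := by
          rw [mul_pow, show T = n + 3 from hT, pow_add ρ n 3]
          field_simp
          ring
      _ ≤ 70000 * (32 * (T : ℝ)) ^ T * ρ ^ n * (1 + k) := by gcongr; norm_num
      _ ≤ 1 := h3
  -- one level of the telescoping
  have hlevel : ∀ j, Real.log (covNum (K ∩ ((M : ℝ) ^ (j + 1)) • L) (((M : ℝ) ^ j / 2) • L)) ≤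
      T * l j := by
    intro j
    set s := (M : ℝ) ^ j with hs
    have hspos : 0 < s := by positivity
    have hA' : IsSymBody (s⁻¹ • (K ∩ ((M : ℝ) ^ (j + 1)) • L)) :=
      (hA j).smul (inv_ne_zero hspos.ne')
    have hAL : s⁻¹ • (K ∩ ((M : ℝ) ^ (j + 1)) • L) ⊆ (M : ℝ) • L := by
      rintro _ ⟨x, ⟨-, l', hl', rfl⟩, rfl⟩
      refine ⟨l', hl', ?_⟩
      simp only [smul_smul]
      congr 1
      rw [pow_succ, ← hs]; field_simp
    have h := scale_bound_tilt hA' hL hM1 hAL hρ hρ64 (isNet_scale hspos (hZ j))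
      (show 1 ≤ T by omega) (hnum j)
    have e : covNum (K ∩ ((M : ℝ) ^ (j + 1)) • L) ((s / 2) • L) =
        covNum (s⁻¹ • (K ∩ ((M : ℝ) ^ (j + 1)) • L)) ((1 / 2 : ℝ) • L) := by
      rw [← covNum_smul (inv_ne_zero hspos.ne') (hA j).compact (hL.smul (by positivity)), smul_smul]
      congr 2
      field_simp
    have hApos := covNum_pos (hA j).compact ⟨0, (hA j).zero_mem⟩
      (hL.smul (t := s / 2) (by positivity))
    rw [e] at hApos ⊢
    refine (Real.log_le_log (by exact_mod_cast hApos) (Nat.cast_le.2 h)).trans (le_of_eq ?_)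
    push_cast
    rw [Real.log_pow]
  -- telescoping
  have htele : ∀ J : ℕ, Real.log (covNum K L) ≤ Real.log (covNum K ((M : ℝ) ^ J • L)) +
      ∑ j ∈ Finset.range J, (T : ℝ) * l j := by
    intro J
    induction J with
    | zero => simp
    | succ J ih =>
      refine ih.trans ?_
      have h := covNum_step_ratio hK hL (pow_pos hMpos J) (pow_pos hMpos (J + 1))
      have p1 := covNum_pos hK.compact ⟨0, hK.zero_mem⟩
        (hL.smul (t := (M : ℝ) ^ J) (by positivity))
      have p2 := covNum_pos hK.compact ⟨0, hK.zero_mem⟩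
        (hL.smul (t := (M : ℝ) ^ (J + 1)) (by positivity))
      have p3 := covNum_pos (hA J).compact ⟨0, (hA J).zero_mem⟩
        (hL.smul (t := (M : ℝ) ^ J / 2) (by positivity))
      have h' := Real.log_le_log (by exact_mod_cast p1) (Nat.cast_le (α := ℝ).2 h)
      rw [Nat.cast_mul, Real.log_mul (by exact_mod_cast (by omega : covNum K ((M : ℝ) ^ (J + 1) • L) ≠ 0))
        (by exact_mod_cast (by omega :
          covNum (K ∩ ((M : ℝ) ^ (J + 1)) • L) (((M : ℝ) ^ J / 2) • L) ≠ 0))] at h'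
      rw [Finset.sum_range_succ]
      linarith [hlevel J]
  have hsum : ∑ j ∈ Finset.range J, l j ≤ 3 * k := by
    rw [hJ, sum_residues_three]
    calc _ ≤ ∑ _r ∈ Finset.range 3, k := Finset.sum_le_sum fun r _ => hclass r q
      _ = _ := by simp
  have hlogtop : Real.log (covNum K ((M : ℝ) ^ J • L)) ≤ 0 :=
    Real.log_nonpos (Nat.cast_nonneg _) (by exact_mod_cast htop)
  calc Real.log (covNum K L) ≤ 0 + (T : ℝ) * (3 * k) := by
        refine (htele J).trans (add_le_add hlogtop ?_)
        rw [← Finset.mul_sum]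
        exact mul_le_mul_of_nonneg_left hsum (Nat.cast_nonneg _)
    _ ≤ 12 * n * k := by
        rw [hT]; push_cast
        nlinarith

/-- Both inequalities at scale `C n (1 + log N) ^ (1 / n)`. -/
theorem tilt_duality_both (hK : IsSymBody K) (hL : IsSymBody L) {n : ℕ} (hn : 1 ≤ n) :
    Real.log (covNum K L) ≤ 12 * n * Real.log (covNum (polarBody L)
        ((3000000000000000 * n * (1 + Real.log (covNum K L)) ^ (1 / (n : ℝ)))⁻¹ • polarBody K)) ∧
    Real.log (covNum (polarBody L) ((3000000000000000 * n *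
        (1 + Real.log (covNum (polarBody L) (polarBody K))) ^ (1 / (n : ℝ))) • polarBody K)) ≤
      12 * n * Real.log (covNum K L) := by
  have hnR : (1 : ℝ) ≤ n := by exact_mod_cast hn
  constructor
  · set a := 3000000000000000 * (n : ℝ) * (1 + Real.log (covNum K L)) ^ (1 / (n : ℝ)) with ha
    set k := Real.log (covNum (polarBody L) (a⁻¹ • polarBody K)) with hk
    have hk0 : 0 ≤ k := Real.log_natCast_nonneg _
    rcases le_total (Real.log (covNum K L)) k with h | h
    · nlinarith
    · refine tilt_duality hK hL hn (ha ▸ ?_)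
      gcongr
  · set a := 3000000000000000 * (n : ℝ) *
      (1 + Real.log (covNum (polarBody L) (polarBody K))) ^ (1 / (n : ℝ)) with ha
    have hk0 : 0 ≤ Real.log (covNum (polarBody L) (polarBody K)) := Real.log_natCast_nonneg _
    have hroot : 1 ≤ (1 + Real.log (covNum (polarBody L) (polarBody K))) ^ (1 / (n : ℝ)) :=
      Real.one_le_rpow (by linarith) (by positivity)
    have ha1 : 1 ≤ a := by
      rw [ha]
      nlinarith [mul_le_mul hnR hroot zero_le_one (by linarith : (0 : ℝ) ≤ n)]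
    have hapos : 0 < a := by linarith
    have hK' : IsSymBody (a • polarBody K) := hK.polar.smul hapos.ne'
    -- the scale only grows with the body
    have hmono : covNum (polarBody L) (a • polarBody K) ≤ covNum (polarBody L) (polarBody K) := by
      obtain ⟨S, hcard, hS⟩ := covNum_spec hL.polar.compact hK.polar
      refine hcard ▸ covNum_le (hS.trans (Set.add_subset_add_left ?_))
      intro y hy
      rw [Set.mem_smul_set_iff_inv_smul_mem₀ hapos.ne']
      exact hK.polar.convex.smul_mem_of_zero_mem hK.polar.zero_mem hy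
        ⟨by positivity, inv_le_one_of_one_le₀ ha1⟩
    have hpos := covNum_pos hL.polar.compact ⟨0, hL.polar.zero_mem⟩ hK'
    set b := 3000000000000000 * (n : ℝ) *
      (1 + Real.log (covNum (polarBody L) (a • polarBody K))) ^ (1 / (n : ℝ)) with hb
    have hba : b ≤ a := by
      rw [hb, ha]
      refine mul_le_mul_of_nonneg_left (Real.rpow_le_rpow ?_ ?_ (by positivity)) (by positivity)
      · linarith [Real.log_natCast_nonneg (covNum (polarBody L) (a • polarBody K))]
      · linarith [Real.log_le_log (Nat.cast_pos.2 hpos) (Nat.cast_le (α := ℝ).2 hmono)]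
    have hroot' : 1 ≤ (1 + Real.log (covNum (polarBody L) (a • polarBody K))) ^ (1 / (n : ℝ)) :=
      Real.one_le_rpow (by linarith [Real.log_natCast_nonneg (covNum (polarBody L) (a • polarBody K))])
        (by positivity)
    have hbpos : 0 < b := by rw [hb]; positivity
    set k := Real.log (covNum K L) with hk
    set m := Real.log (covNum (polarBody L) (a • polarBody K)) with hm
    have hk0 : 0 ≤ k := Real.log_natCast_nonneg _
    rcases le_total m k with h | h
    · nlinarith
    · -- the dual statement, with `a` as the scale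
      have e : covNum (a⁻¹ • K) (a⁻¹ • L) = covNum K L := covNum_smul (inv_ne_zero hapos.ne') hK.compact hL
      have hd := tilt_duality hL.polar hK' hn (a := a) (by
        rw [polar_smul hapos.ne', polar_polar hK, polar_polar hL, e]
        calc 3000000000000000 * (n : ℝ) * (1 + k) ^ (1 / (n : ℝ)) ≤ b := by rw [hb]; gcongr
          _ ≤ a := hba)
      rwa [polar_smul hapos.ne', polar_polar hK, polar_polar hL, e] at hd

end Vale.Agent.P126.Tilt
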