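import Vale.Agent.P126.Boost
import Vale.Agent.P126.TiltMain

/-!
# Almost linear duality of metric entropy at an absolute scale (P126)
-/

open scoped Pointwise InnerProductSpace
open Set Metric

namespace Vale.Agent.P126.Boost

variable {E : Type*} [NormedAddCommGroup E] [InnerProductSpace ℝ E] [FiniteDimensional ℝ E]
variable {K L : Set E}

/-- For every `D`: `log N(K,L) ≤ C_D k ^ (1 + 1/D)` with `k = log N(L°, K°/(1024 (D + 1)))`. -/
theorem boost_duality (hK : IsSymBody K) (hL : IsSymBody L) {D : ℕ} (hD : 1 ≤ D) :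
    Real.log (covNum K L) ≤ 81920000 * (D : ℝ) * ((D : ℝ) + 1) ^ 2 *
      (Real.log (covNum (polarBody L) ((1024 * ((D : ℝ) + 1))⁻¹ • polarBody K)) *
       Real.log (covNum (polarBody L) ((1024 * ((D : ℝ) + 1))⁻¹ • polarBody K)) ^
        (1 / (D : ℝ))) := by
  classical
  set k := Real.log (covNum (polarBody L) ((1024 * ((D : ℝ) + 1))⁻¹ • polarBody K)) with hk
  have hk0 : 0 ≤ k := Real.log_natCast_nonneg _
  obtain ⟨M, hMdef⟩ : ∃ M : ℕ, M = 64 * (D + 1) := ⟨_, rfl⟩
  have hMcast : (M : ℝ) = 64 * ((D : ℝ) + 1) := by rw [hMdef]; push_cast; ring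
  have hM64 : (64 : ℝ) ≤ M := by rw [hMcast]; nlinarith [(Nat.cast_nonneg D : (0 : ℝ) ≤ D)]
  have hMpos : (0 : ℝ) < M := by linarith
  set ρ : ℝ := 1 / M with hρdef
  have hρ : 0 < ρ := by positivity
  have hρ64 : ρ ≤ 1 / 64 := one_div_le_one_div_of_le (by norm_num) hM64
  have hMρ : 1 / ρ ≤ M := by rw [hρdef, one_div_one_div]
  have hρa : ρ / 16 = (1024 * ((D : ℝ) + 1))⁻¹ := by rw [hρdef, hMcast]; field_simp; norm_num
  obtain ⟨r, hr, hball⟩ := hL.exists_ball
  obtain ⟨R, hR, hbd⟩ := hK.exists_bound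
  obtain ⟨q, hq⟩ := pow_unbounded_of_one_lt (R / r) (show (1 : ℝ) < M by linarith)
  set J := 3 * q with hJ
  have hq' : R / r ≤ (M : ℝ) ^ J :=
    hq.le.trans (pow_le_pow_right₀ (by linarith) (by omega))
  have htop : covNum K ((M : ℝ) ^ J • L) ≤ 1 := by
    refine (covNum_le (S := {(0 : E)}) ?_).trans (by simp)
    intro x hx
    refine ⟨0, by simp, x, ?_, by simp⟩
    rw [Set.mem_smul_set_iff_inv_smul_mem₀ (by positivity)]
    apply hball
    rw [mem_closedBall, dist_zero_right, norm_smul, Real.norm_eq_abs,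
      abs_of_pos (by positivity), inv_mul_le_iff₀ (by positivity)]
    calc ‖x‖ ≤ R := hbd x hx
      _ = R / r * r := by field_simp
      _ ≤ _ := by gcongr
  have hA : ∀ j : ℕ, IsSymBody (K ∩ ((M : ℝ) ^ (j + 1)) • L) := fun j =>
    hK.inter (hL.smul (by positivity))
  choose Z hZ using fun j : ℕ =>
    exists_net (hA j) hL.polar.compact (show 0 < ρ * (M : ℝ) ^ j by positivity)
  have hZpos : ∀ j, 1 ≤ (Z j).card := by
    intro j
    obtain ⟨z, hz, -⟩ := (hZ j).near 0 hL.polar.zero_mem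
    exact Finset.card_pos.mpr ⟨z, hz⟩
  let l : ℕ → ℝ := fun j => Real.log (Z j).card
  have hl0 : ∀ j, 0 ≤ l j := fun j => Real.log_natCast_nonneg _
  have hclass : ∀ r q, ∑ i ∈ Finset.range q, l (r + 3 * i) ≤ k := by
    intro r q
    have h := Tilt.prod_card_le_ratio hK hL hρ hρ64 hMρ Z hZ r q
    rw [hρa] at h
    rw [← Fin.sum_univ_eq_sum_range (fun i => l (r + 3 * i))]
    simp only [l]
    rw [← Real.log_prod (fun (i : Fin q) _ => by
      exact_mod_cast (show (Z (r + 3 * (i : ℕ))).card ≠ 0 by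
        have := hZpos (r + 3 * (i : ℕ)); omega))]
    refine Real.log_le_log (Finset.prod_pos fun i _ => by exact_mod_cast hZpos _) ?_
    exact_mod_cast h
  obtain ⟨C, hC⟩ : ∃ C : ℝ, C = 2000 * D * (M : ℝ) ^ 2 := ⟨_, rfl⟩
  have hC0 : 0 ≤ C := by rw [hC]; positivity
  -- one level of the telescoping
  have hlevel : ∀ j, Real.log (covNum (K ∩ ((M : ℝ) ^ (j + 1)) • L) (((M : ℝ) ^ j / 2) • L)) ≤
      C * (l j * l j ^ (1 / (D : ℝ))) := by
    intro j
    set s := (M : ℝ) ^ j with hs
    have hspos : 0 < s := by positivity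
    have hA' : IsSymBody (s⁻¹ • (K ∩ ((M : ℝ) ^ (j + 1)) • L)) :=
      (hA j).smul (inv_ne_zero hspos.ne')
    have hAL : s⁻¹ • (K ∩ ((M : ℝ) ^ (j + 1)) • L) ⊆ (M : ℝ) • L := by
      rintro _ ⟨x, ⟨-, l', hl', rfl⟩, rfl⟩
      refine ⟨l', hl', ?_⟩
      simp only [smul_smul]
      congr 1
      rw [pow_succ, ← hs]; field_simp
    have h := scale_bound_boost hA' hL (R := (M : ℝ)) (by linarith) hAL hD (ρ := ρ)
      (le_of_eq (by rw [hρdef, ← hMcast, one_div_mul_cancel hMpos.ne'])) hρ.le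
      (Tilt.isNet_scale hspos (hZ j))
    have e : covNum (K ∩ ((M : ℝ) ^ (j + 1)) • L) ((s / 2) • L) =
        covNum (s⁻¹ • (K ∩ ((M : ℝ) ^ (j + 1)) • L)) ((1 / 2 : ℝ) • L) := by
      rw [← covNum_smul (inv_ne_zero hspos.ne') (hA j).compact (hL.smul (by positivity)), smul_smul]
      congr 2
      field_simp
    rw [e]
    rw [hC]
    exact h
  -- telescoping
  have htele : ∀ J : ℕ, Real.log (covNum K L) ≤ Real.log (covNum K ((M : ℝ) ^ J • L)) +
      ∑ j ∈ Finset.range J, C * (l j * l j ^ (1 / (D : ℝ))) := by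
    intro J
    induction J with
    | zero => simp
    | succ J ih =>
      refine ih.trans ?_
      have h := covNum_step_ratio hK hL (pow_pos hMpos J) (pow_pos hMpos (J + 1))
      have p1 := covNum_pos hK.compact ⟨0, hK.zero_mem⟩
        (hL.smul (t := (M : ℝ) ^ J) (by positivity))
      have p2 := covNum_pos hK.compact ⟨0, hK.zero_mem⟩
        (hL.smul (t := (M : ℝ) ^ (J + 1)) (by positivity))
      have p3 := covNum_pos (hA J).compact ⟨0, (hA J).zero_mem⟩
        (hL.smul (t := (M : ℝ) ^ J / 2) (by positivity))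
      have h' := Real.log_le_log (by exact_mod_cast p1) (Nat.cast_le (α := ℝ).2 h)
      rw [Nat.cast_mul, Real.log_mul
        (by exact_mod_cast (by omega : covNum K ((M : ℝ) ^ (J + 1) • L) ≠ 0))
        (by exact_mod_cast (by omega :
          covNum (K ∩ ((M : ℝ) ^ (J + 1)) • L) (((M : ℝ) ^ J / 2) • L) ≠ 0))] at h'
      rw [Finset.sum_range_succ]
      linarith [hlevel J]
  have hsum : ∑ j ∈ Finset.range J, l j ≤ 3 * k := by
    rw [hJ, Tilt.sum_residues_three]
    calc _ ≤ ∑ _r ∈ Finset.range 3, k := Finset.sum_le_sum fun r _ => hclass r q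
      _ = _ := by simp
  have hlj : ∀ j, l j ≤ k := fun j => by simpa using hclass j 1
  have hlogtop : Real.log (covNum K ((M : ℝ) ^ J • L)) ≤ 0 :=
    Real.log_nonpos (Nat.cast_nonneg _) (by exact_mod_cast htop)
  have hP : 0 ≤ k ^ (1 / (D : ℝ)) := Real.rpow_nonneg hk0 _
  have hsum' : ∑ j ∈ Finset.range J, C * (l j * l j ^ (1 / (D : ℝ))) ≤
      C * (k ^ (1 / (D : ℝ))) * (3 * k) := by
    calc ∑ j ∈ Finset.range J, C * (l j * l j ^ (1 / (D : ℝ)))
        ≤ ∑ j ∈ Finset.range J, C * (k ^ (1 / (D : ℝ))) * l j := by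
          refine Finset.sum_le_sum fun j _ => ?_
          rw [mul_assoc C, mul_comm (k ^ (1 / (D : ℝ)))]
          exact mul_le_mul_of_nonneg_left (mul_le_mul_of_nonneg_left
            (Real.rpow_le_rpow (hl0 j) (hlj j) (by positivity)) (hl0 j)) hC0
      _ ≤ _ := by
          rw [← Finset.mul_sum]
          exact mul_le_mul_of_nonneg_left hsum (by positivity)
  calc Real.log (covNum K L) ≤ 0 + C * (k ^ (1 / (D : ℝ))) * (3 * k) :=
        (htele J).trans (add_le_add hlogtop hsum')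
    _ = 24576000 * (D : ℝ) * ((D : ℝ) + 1) ^ 2 * (k * k ^ (1 / (D : ℝ))) := by
        rw [hC, hMcast]; ring
    _ ≤ _ := by
        refine mul_le_mul_of_nonneg_right ?_ (mul_nonneg hk0 hP)
        gcongr
        norm_num

/-- Both inequalities with explicit dependence on the level count. -/
theorem boost_duality_uniform {D : ℕ} (hD : 1 ≤ D) (hK : IsSymBody K) (hL : IsSymBody L) :
    Real.log (covNum K L) ≤ 327680000 * (D : ℝ) ^ 3 *
        Real.log (covNum (polarBody L) ((2048 * (D : ℝ))⁻¹ • polarBody K)) ^ (1 + 1 / (D : ℝ)) ∧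
      Real.log (covNum (polarBody L) ((2048 * (D : ℝ)) • polarBody K)) ≤ 327680000 * (D : ℝ) ^ 3 *
        Real.log (covNum K L) ^ (1 + 1 / (D : ℝ)) := by
  have hD1 : (1 : ℝ) ≤ D := by exact_mod_cast hD
  set a : ℝ := 2048 * (D : ℝ) with ha
  have ha0 : 0 < a := by positivity
  have hone : ∀ (K L : Set E), IsSymBody K → IsSymBody L → Real.log (covNum K L) ≤
      327680000 * (D : ℝ) ^ 3 *
        Real.log (covNum (polarBody L) (a⁻¹ • polarBody K)) ^ (1 + 1 / (D : ℝ)) := by
    intro K L hK hL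
    set a' : ℝ := 1024 * ((D : ℝ) + 1) with ha'
    have ha'0 : 0 < a' := by positivity
    have ha'a : a' ≤ a := by rw [ha, ha']; linarith
    have hB := hK.polar.smul (inv_ne_zero ha0.ne')
    have hB' := hK.polar.smul (inv_ne_zero ha'0.ne')
    -- a larger scale makes the dual covering number larger
    have hmono : covNum (polarBody L) (a'⁻¹ • polarBody K) ≤
        covNum (polarBody L) (a⁻¹ • polarBody K) := by
      obtain ⟨S, hcard, hS⟩ := covNum_spec hL.polar.compact hB
      refine hcard ▸ covNum_le (hS.trans (Set.add_subset_add_left ?_))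
      rintro _ ⟨y, hy, rfl⟩
      refine ⟨(a' / a) • y, hK.polar.convex.smul_mem_of_zero_mem hK.polar.zero_mem hy
        ⟨by positivity, (div_le_one ha0).2 ha'a⟩, ?_⟩
      simp only [smul_smul]
      congr 1
      field_simp
    have hlog : Real.log (covNum (polarBody L) (a'⁻¹ • polarBody K)) ≤
        Real.log (covNum (polarBody L) (a⁻¹ • polarBody K)) :=
      Real.log_le_log (Nat.cast_pos.2 (covNum_pos hL.polar.compact ⟨0, hL.polar.zero_mem⟩ hB'))
        (Nat.cast_le.2 hmono)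
    have hk0 := Real.log_natCast_nonneg (covNum (polarBody L) (a'⁻¹ • polarBody K))
    refine (boost_duality hK hL hD).trans ?_
    have hne : 1 + 1 / (D : ℝ) ≠ 0 := by positivity
    rw [Real.rpow_add' (hk0.trans hlog) hne, Real.rpow_one]
    refine mul_le_mul ?_ (mul_le_mul hlog (Real.rpow_le_rpow hk0 hlog (by positivity))
      (Real.rpow_nonneg hk0 _) (hk0.trans hlog)) (mul_nonneg hk0 (Real.rpow_nonneg hk0 _))
      (by positivity)
    have h4 : ((D : ℝ) + 1) ^ 2 ≤ 4 * (D : ℝ) ^ 2 := by nlinarith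
    have := mul_le_mul_of_nonneg_left h4 (show (0 : ℝ) ≤ 81920000 * (D : ℝ) by positivity)
    linarith
  refine ⟨hone K L hK hL, ?_⟩
  have h := hone (polarBody L) (a • polarBody K) hL.polar (hK.polar.smul ha0.ne')
  rw [polar_smul ha0.ne', polar_polar hK, polar_polar hL,
    covNum_smul (inv_ne_zero ha0.ne') hK.compact hL] at h
  exact h

/-- One absolute constant serves scale and factor. -/
theorem exists_uniform :
    ∃ C : ℝ, 1 ≤ C ∧ ∀ D : ℕ, 1 ≤ D → ∀ (n : ℕ)
      (K L : Set (EuclideanSpace ℝ (Fin n))), IsSymBody K → IsSymBody L →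
        Real.log (covNum K L) ≤ C * (D : ℝ) ^ 3 *
          Real.log (covNum (polarBody L) ((C * (D : ℝ))⁻¹ • polarBody K)) ^ (1 + 1 / (D : ℝ)) ∧
        Real.log (covNum (polarBody L) ((C * (D : ℝ)) • polarBody K)) ≤ C * (D : ℝ) ^ 3 *
          Real.log (covNum K L) ^ (1 + 1 / (D : ℝ)) := by
  refine ⟨327680000, by norm_num, fun D hD n K L hK hL => ?_⟩
  have hD1 : (1 : ℝ) ≤ D := by exact_mod_cast hD
  have key : ∀ (K L : Set (EuclideanSpace ℝ (Fin n))) (s t : ℝ), IsSymBody K → IsSymBody L →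
      0 < s → s ≤ t → covNum (polarBody L) (s⁻¹ • polarBody K) ≤
        covNum (polarBody L) (t⁻¹ • polarBody K) := by
    intro K L s t hK hL hs hst
    have ht : 0 < t := hs.trans_le hst
    obtain ⟨S, hcard, hS⟩ := covNum_spec hL.polar.compact (hK.polar.smul (inv_ne_zero ht.ne'))
    refine hcard ▸ covNum_le (hS.trans (Set.add_subset_add_left ?_))
    rintro _ ⟨y, hy, rfl⟩
    refine ⟨(s / t) • y, hK.polar.convex.smul_mem_of_zero_mem hK.polar.zero_mem hy
      ⟨by positivity, (div_le_one ht).2 hst⟩, ?_⟩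
    simp only [smul_smul]
    congr 1
    field_simp
  have hlk : ∀ (K L : Set (EuclideanSpace ℝ (Fin n))), IsSymBody K → IsSymBody L →
      Real.log (covNum K L) ≤ 327680000 * (D : ℝ) ^ 3 * Real.log (covNum (polarBody L)
        ((327680000 * (D : ℝ))⁻¹ • polarBody K)) ^ (1 + 1 / (D : ℝ)) := by
    intro K L hK hL
    refine (boost_duality_uniform hD hK hL).1.trans (mul_le_mul_of_nonneg_left ?_ (by positivity))
    refine Real.rpow_le_rpow (Real.log_natCast_nonneg _) ?_ (by positivity)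
    exact Real.log_le_log (Nat.cast_pos.2 (covNum_pos hL.polar.compact ⟨0, hL.polar.zero_mem⟩
      (hK.polar.smul (by positivity))))
      (Nat.cast_le.2 (key K L _ _ hK hL (by positivity) (by linarith)))
  refine ⟨hlk K L hK hL, ?_⟩
  set a : ℝ := 327680000 * (D : ℝ) with ha
  have ha0 : 0 < a := by positivity
  have h := hlk (polarBody L) (a • polarBody K) hL.polar (hK.polar.smul ha0.ne')
  rw [polar_smul ha0.ne', polar_polar hK, polar_polar hL,
    covNum_smul (inv_ne_zero ha0.ne') hK.compact hL] at h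
  exact h

end Vale.Agent.P126.Boost
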