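import Vale.Agent.P126.Sampling

/-!
# Quadratic duality of metric entropy (P126)
-/

open scoped Pointwise InnerProductSpace
open Set Metric

namespace Vale.Agent.P126

variable {E : Type*} [NormedAddCommGroup E] [InnerProductSpace ℝ E] [FiniteDimensional ℝ E]
variable {K L : Set E}

omit [FiniteDimensional ℝ E] in
/-- One step of the telescoping. -/
lemma covNum_step (hK : IsSymBody K) (hL : IsSymBody L) {s : ℝ} (hs : 0 < s) :
    covNum K (s • L) ≤ covNum K ((2 * s) • L) * covNum (K ∩ (2 * s) • L) ((s / 2) • L) := by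
  classical
  obtain ⟨S, hScard, hS⟩ := covNum_spec hK.compact (hL.smul (t := 2 * s) (by positivity))
  obtain ⟨T, hTcard, hT⟩ := covNum_spec (hK.inter (hL.smul (t := 2 * s) (by positivity))).compact
    (hL.smul (t := s / 2) (by positivity))
  let kf : E → E := fun c =>
    if h : ∃ k ∈ K, k - c ∈ (2 * s) • L then h.choose else 0
  let U : Finset E := (S ×ˢ T).image (fun ct => kf ct.1 + (2 : ℝ) • ct.2)
  have hU : U.card ≤ covNum K ((2 * s) • L) * covNum (K ∩ (2 * s) • L) ((s / 2) • L) := by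
    refine Finset.card_image_le.trans ?_
    rw [Finset.card_product, hScard, hTcard]
  refine le_trans (covNum_le (S := U) ?_) hU
  intro x hx
  obtain ⟨c, hc, d, hd, hxcd⟩ := hS hx
  have hex : ∃ k ∈ K, k - c ∈ (2 * s) • L := ⟨x, hx, by rw [← hxcd]; simpa using hd⟩
  have hk : kf c ∈ K ∧ kf c - c ∈ (2 * s) • L := by
    simp only [kf, dif_pos hex]
    exact hex.choose_spec
  have hhalf : (1 / 2 : ℝ) • (x - kf c) ∈ K ∩ (2 * s) • L := by
    constructor
    · have := hK.convex hx (hK.neg_mem hk.1) (a := (1 / 2 : ℝ)) (b := (1 / 2 : ℝ))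
        (by norm_num) (by norm_num) (by norm_num)
      convert this using 1
      module
    · have h2L := hL.smul (t := 2 * s) (by positivity)
      have := h2L.convex hd (h2L.neg_mem hk.2) (a := (1 / 2 : ℝ)) (b := (1 / 2 : ℝ))
        (by norm_num) (by norm_num) (by norm_num)
      convert this using 1
      rw [← hxcd]
      module
  obtain ⟨t, ht, l, hl, htl⟩ := hT hhalf
  obtain ⟨l', hl', rfl⟩ := hl
  refine ⟨kf c + (2 : ℝ) • t, ?_, s • l', Set.smul_mem_smul_set hl', ?_⟩
  · exact Finset.mem_image.mpr ⟨(c, t), Finset.mk_mem_product hc ht, rfl⟩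
  · have h2 : x - kf c = (2 : ℝ) • (t + (s / 2) • l') := by
      rw [show t + (s / 2) • l' = (1 / 2 : ℝ) • (x - kf c) from htl]
      module
    calc kf c + (2 : ℝ) • t + s • l' = kf c + (2 : ℝ) • (t + (s / 2) • l') := by module
      _ = x := by rw [← h2]; abel

omit [FiniteDimensional ℝ E] in
/-- Telescoping over dyadic scales. -/
lemma log_covNum_telescope (hK : IsSymBody K) (hL : IsSymBody L) (J : ℕ) :
    Real.log (covNum K L) ≤ Real.log (covNum K ((2 : ℝ) ^ J • L)) +
      ∑ j ∈ Finset.range J,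
        Real.log (covNum (K ∩ (2 * (2 : ℝ) ^ j) • L) (((2 : ℝ) ^ j / 2) • L)) := by
  induction J with
  | zero => simp
  | succ J ih =>
    refine ih.trans ?_
    rw [Finset.sum_range_succ, pow_succ' (2 : ℝ) J]
    have hs : (0 : ℝ) < 2 ^ J := by positivity
    have h := covNum_step hK hL hs
    have p0 := covNum_pos hK.compact ⟨0, hK.zero_mem⟩ (hL.smul hs.ne')
    have p1 := covNum_pos hK.compact ⟨0, hK.zero_mem⟩
      (hL.smul (t := 2 * (2 : ℝ) ^ J) (by positivity))
    have hA := hK.inter (hL.smul (t := 2 * (2 : ℝ) ^ J) (by positivity))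
    have p2 := covNum_pos hA.compact ⟨0, hA.zero_mem⟩
      (hL.smul (t := (2 : ℝ) ^ J / 2) (by positivity))
    have h' : (covNum K ((2 : ℝ) ^ J • L) : ℝ) ≤ (covNum K ((2 * (2 : ℝ) ^ J) • L) : ℝ) *
        (covNum (K ∩ (2 * (2 : ℝ) ^ J) • L) (((2 : ℝ) ^ J / 2) • L) : ℝ) := by
      exact_mod_cast h
    have := Real.log_le_log (by exact_mod_cast p0) h'
    rw [Real.log_mul (by exact_mod_cast (show covNum K ((2 * (2 : ℝ) ^ J) • L) ≠ 0 by omega))
      (by exact_mod_cast
        (show covNum (K ∩ (2 * (2 : ℝ) ^ J) • L) (((2 : ℝ) ^ J / 2) • L) ≠ 0 by omega))] at this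
    linarith

lemma tail_geom (q i₀ : ℕ) :
    ∑ i ∈ Finset.range q, (if i₀ < i then (1 / 1024 : ℝ) ^ (i - i₀) else 0) ≤ 1 / 1023 := by
  have hc0 : (0 : ℝ) ≤ 1 / 1024 := by norm_num
  rw [← Finset.sum_filter,
    show (Finset.range q).filter (fun i => i₀ < i) = Finset.Ico (i₀ + 1) q by
      ext i; simp [Finset.mem_Ico]; omega,
    Finset.sum_Ico_eq_sum_range]
  have : ∀ m : ℕ, (1 / 1024 : ℝ) ^ (i₀ + 1 + m - i₀) = 1 / 1024 * (1 / 1024 : ℝ) ^ m := by
    intro m
    rw [show i₀ + 1 + m - i₀ = m + 1 by omega, pow_succ']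
  rw [Finset.sum_congr rfl (fun m _ => this m), ← Finset.mul_sum]
  have hsum := (summable_geometric_of_lt_one hc0 (by norm_num)).sum_le_tsum
    (Finset.range (q - (i₀ + 1))) (fun i _ => by positivity)
  rw [tsum_geometric_of_lt_one hc0 (by norm_num)] at hsum
  norm_num at hsum ⊢
  linarith

omit [FiniteDimensional ℝ E] in
/-- Nets at scales in one residue class mod 10 combine into separated points of `L°`. -/
lemma prod_card_le (hK : IsSymBody K) (hL : IsSymBody L)
    (hB : IsSymBody ((1 / 1024 : ℝ) • polarBody K)) (hD : IsCompact (polarBody L))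
    (Z : ℕ → Finset E)
    (hZ : ∀ j, IsNet (K ∩ (2 * (2 : ℝ) ^ j) • L) (polarBody L) ((2 : ℝ) ^ j / 64) (Z j))
    (r q : ℕ) :
    ∏ i : Fin q, (Z (r + 10 * i)).card ≤ covNum (polarBody L) ((1 / 1024 : ℝ) • polarBody K) := by
  classical
  let sc : ℕ → ℝ := fun i => (2 : ℝ) ^ (r + 10 * i)
  have hsc : ∀ i, 0 < sc i := fun i => by positivity
  let Y : (∀ i : Fin q, {z : E // z ∈ Z (r + 10 * i)}) → E :=
    fun T => ∑ i : Fin q, (1 / (2 * sc i)) • (T i : E)
  have hYD : ∀ T, Y T ∈ polarBody L := by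
    intro T x hx
    simp only [Y, inner_sum, real_inner_smul_right]
    have hterm : ∀ i : Fin q,
        1 / (2 * sc i) * ⟪x, (T i : E)⟫_ℝ ≤ 1 / 2 * (1 / 1024 : ℝ) ^ (i : ℕ) := by
      intro i
      have h1 : ⟪x, (T i : E)⟫_ℝ ≤ 1 := (hZ _).subset (T i).2 x hx
      have h2 : (1024 : ℝ) ^ (i : ℕ) ≤ sc i := by
        simp only [sc]
        rw [show (1024 : ℝ) = 2 ^ 10 by norm_num, ← pow_mul]
        exact pow_le_pow_right₀ (by norm_num) (by omega)
      calc 1 / (2 * sc i) * ⟪x, (T i : E)⟫_ℝ ≤ 1 / (2 * sc i) * 1 :=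
            mul_le_mul_of_nonneg_left h1 (by have := hsc i; positivity)
        _ ≤ 1 / (2 * (1024 : ℝ) ^ (i : ℕ)) := by rw [mul_one]; gcongr
        _ = _ := by rw [div_pow, one_pow]; ring
    refine (Finset.sum_le_sum fun i _ => hterm i).trans ?_
    rw [Fin.sum_univ_eq_sum_range (fun i => 1 / 2 * (1 / 1024 : ℝ) ^ i), ← Finset.mul_sum]
    have hsum := (summable_geometric_of_lt_one (r := (1 / 1024 : ℝ)) (by norm_num)
      (by norm_num)).sum_le_tsum (Finset.range q) (fun i _ => by positivity)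
    rw [tsum_geometric_of_lt_one (by norm_num) (by norm_num)] at hsum
    norm_num at hsum ⊢
    linarith
  have hsep : ∀ T T', T ≠ T' → ∃ x ∈ K, 2 * (1 / 1024 : ℝ) < |⟪x, Y T - Y T'⟫_ℝ| := by
    intro T T' hne
    obtain ⟨i₁, hi₁⟩ := Function.ne_iff.mp hne
    obtain ⟨i₀, hi₀, hmin⟩ := Finset.exists_min_image
      (Finset.univ.filter fun i => T i ≠ T' i) (fun i : Fin q => (i : ℕ)) ⟨i₁, by simpa using hi₁⟩
    have hne₀ : T i₀ ≠ T' i₀ := (Finset.mem_filter.mp hi₀).2
    obtain ⟨x, ⟨hxK, hxL⟩, hlt⟩ := (hZ (r + 10 * i₀)).sep _ (T i₀).2 _ (T' i₀).2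
      (fun h => hne₀ (Subtype.ext h))
    refine ⟨x, hxK, ?_⟩
    let g : Fin q → ℝ := fun i => 1 / (2 * sc i) * ⟪x, (T i : E) - (T' i : E)⟫_ℝ
    have hdiff : ⟪x, Y T - Y T'⟫_ℝ = ∑ i, g i := by
      simp only [Y, g, inner_sub_right, inner_sum, real_inner_smul_right, mul_sub,
        Finset.sum_sub_distrib]
    have hg0 : 1 / 128 < |g i₀| := by
      simp only [g, abs_mul]
      rw [abs_of_pos (by have := hsc i₀; positivity)]
      have : (1 : ℝ) / 128 = 1 / (2 * sc i₀) * (sc i₀ / 64) := by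
        have := (hsc i₀).ne'
        field_simp; ring
      rw [this]
      exact mul_lt_mul_of_pos_left hlt (by have := hsc i₀; positivity)
    have hgt : ∀ i ∈ Finset.univ.erase i₀,
        |g i| ≤ if (i₀ : ℕ) < i then 2 * (1 / 1024 : ℝ) ^ ((i : ℕ) - i₀) else 0 := by
      intro i hi
      have hii : i ≠ i₀ := (Finset.mem_erase.mp hi).1
      by_cases heq : T i = T' i
      · simp only [g, heq, sub_self, inner_zero_right, mul_zero, abs_zero]
        split <;> positivity
      · have hle : (i₀ : ℕ) ≤ i := hmin i (by simp [heq])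
        have hlt' : (i₀ : ℕ) < i := lt_of_le_of_ne hle (fun h => hii (Fin.ext h.symm))
        rw [if_pos hlt']
        simp only [g, abs_mul, inner_sub_right]
        rw [abs_of_pos (by have := hsc i; positivity)]
        have hpos : 0 < 2 * (2 : ℝ) ^ (r + 10 * (i₀ : ℕ)) := by positivity
        have a := abs_inner_le_of_mem_smul hL hpos hxL ((hZ _).subset (T i).2)
        have b := abs_inner_le_of_mem_smul hL hpos hxL ((hZ _).subset (T' i).2)
        have hscale : sc i = sc i₀ * (1024 : ℝ) ^ ((i : ℕ) - i₀) := by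
          simp only [sc]
          rw [show (1024 : ℝ) = 2 ^ 10 by norm_num, ← pow_mul, ← pow_add]
          congr 1; omega
        have hs0 := (hsc i₀).ne'
        calc 1 / (2 * sc i) * |⟪x, (T i : E)⟫_ℝ - ⟪x, (T' i : E)⟫_ℝ|
            ≤ 1 / (2 * sc i) * (4 * sc i₀) := by
              refine mul_le_mul_of_nonneg_left ((abs_sub _ _).trans ?_)
                (by have := hsc i; positivity)
              simp only [sc]; linarith
          _ = 2 * (1 / 1024 : ℝ) ^ ((i : ℕ) - i₀) := by
              rw [hscale, div_pow, one_pow]; field_simp; ring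
    have hrest : |∑ i ∈ Finset.univ.erase i₀, g i| ≤ 2 * (1 / 1023) := by
      calc |∑ i ∈ Finset.univ.erase i₀, g i| ≤ ∑ i ∈ Finset.univ.erase i₀, |g i| :=
            Finset.abs_sum_le_sum_abs _ _
        _ ≤ ∑ i ∈ Finset.univ.erase i₀,
              (if (i₀ : ℕ) < i then 2 * (1 / 1024 : ℝ) ^ ((i : ℕ) - i₀) else 0) :=
            Finset.sum_le_sum hgt
        _ ≤ ∑ i : Fin q,
              (if (i₀ : ℕ) < i then 2 * (1 / 1024 : ℝ) ^ ((i : ℕ) - i₀) else 0) :=
            Finset.sum_le_sum_of_subset_of_nonneg (Finset.erase_subset _ _)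
              (fun i _ _ => by split <;> positivity)
        _ = 2 * ∑ i ∈ Finset.range q,
              (if (i₀ : ℕ) < i then (1 / 1024 : ℝ) ^ (i - i₀) else 0) := by
            rw [Fin.sum_univ_eq_sum_range
              (fun i : ℕ => if (i₀ : ℕ) < i then 2 * (1 / 1024 : ℝ) ^ (i - i₀) else 0),
              Finset.mul_sum]
            exact Finset.sum_congr rfl fun i _ => by split <;> ring
        _ ≤ _ := by linarith [tail_geom q i₀]
    rw [hdiff, ← Finset.add_sum_erase _ _ (Finset.mem_univ i₀)]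
    have h := abs_sub_abs_le_abs_sub (g i₀) (-(∑ i ∈ Finset.univ.erase i₀, g i))
    rw [abs_neg, sub_neg_eq_add] at h
    linarith
  have := card_le_covNum hK hD (by norm_num : (0 : ℝ) < 1 / 1024) hB Y hYD hsep
  simpa [Fintype.card_pi] using this

lemma sum_residues (f : ℕ → ℝ) (q : ℕ) :
    ∑ j ∈ Finset.range (10 * q), f j =
      ∑ r ∈ Finset.range 10, ∑ i ∈ Finset.range q, f (r + 10 * i) := by
  rw [Finset.sum_comm]
  induction q with
  | zero => simp
  | succ q ih =>
    rw [Finset.sum_range_succ, ← ih, show 10 * (q + 1) = 10 * q + 10 by ring,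
      Finset.sum_range_add]
    congr 1
    exact Finset.sum_congr rfl fun r _ => by rw [add_comm]

/-- The one-sided inequality. -/
theorem quadratic_duality (hK : IsSymBody K) (hL : IsSymBody L) :
    Real.log (covNum K L) ≤
      7000000 * Real.log (covNum (polarBody L) ((1 / 1024 : ℝ) • polarBody K)) ^ 2 := by
  classical
  obtain ⟨ρ, hρ, hball⟩ := hL.exists_ball
  obtain ⟨R, hR, hbd⟩ := hK.exists_bound
  obtain ⟨q, hq⟩ := pow_unbounded_of_one_lt (R / ρ) (show (1 : ℝ) < 2 by norm_num)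
  set J := 10 * q with hJ
  have hq' : R / ρ ≤ (2 : ℝ) ^ J :=
    hq.le.trans (pow_le_pow_right₀ (by norm_num) (by omega))
  have htop : covNum K ((2 : ℝ) ^ J • L) ≤ 1 := by
    refine (covNum_le (S := {(0 : E)}) ?_).trans (by simp)
    intro x hx
    refine ⟨0, by simp, x, ?_, by simp⟩
    rw [Set.mem_smul_set_iff_inv_smul_mem₀ (by positivity)]
    apply hball
    rw [mem_closedBall, dist_zero_right, norm_smul, Real.norm_eq_abs,
      abs_of_pos (by positivity), inv_mul_le_iff₀ (by positivity)]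
    calc ‖x‖ ≤ R := hbd x hx
      _ = R / ρ * ρ := by field_simp
      _ ≤ _ := by gcongr
  have hA : ∀ j : ℕ, IsSymBody (K ∩ (2 * (2 : ℝ) ^ j) • L) := fun j =>
    hK.inter (hL.smul (by positivity))
  choose Z hZ using fun j : ℕ =>
    exists_net (hA j) hL.polar.compact (show 0 < (2 : ℝ) ^ j / 64 by positivity)
  have hZpos : ∀ j, 1 ≤ (Z j).card := by
    intro j
    obtain ⟨z, hz, -⟩ := (hZ j).near 0 hL.polar.zero_mem
    exact Finset.card_pos.mpr ⟨z, hz⟩
  set N := covNum (polarBody L) ((1 / 1024 : ℝ) • polarBody K) with hN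
  let l : ℕ → ℝ := fun j => Real.log (Z j).card
  have hl0 : ∀ j, 0 ≤ l j := fun j => Real.log_nonneg (by exact_mod_cast hZpos j)
  have hclass : ∀ r, ∑ i ∈ Finset.range q, l (r + 10 * i) ≤ Real.log N := by
    intro r
    have h := prod_card_le hK hL (hK.polar.smul (by norm_num)) hL.polar.compact Z hZ r q
    rw [← hN] at h
    rw [← Fin.sum_univ_eq_sum_range (fun i => l (r + 10 * i))]
    simp only [l]
    rw [← Real.log_prod (fun (i : Fin q) _ => by
      exact_mod_cast (show (Z (r + 10 * (i : ℕ))).card ≠ 0 by have := hZpos (r + 10 * i); omega))]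
    refine Real.log_le_log (Finset.prod_pos fun i _ => by exact_mod_cast hZpos _) ?_
    exact_mod_cast h
  have hsum : ∑ j ∈ Finset.range J, l j ≤ 10 * Real.log N := by
    rw [hJ, sum_residues]
    calc _ ≤ ∑ _r ∈ Finset.range 10, Real.log N := Finset.sum_le_sum fun r _ => hclass r
      _ = _ := by simp
  have hsq : ∑ j ∈ Finset.range J, l j ^ 2 ≤ (10 * Real.log N) ^ 2 :=
    (Finset.sum_sq_le_sq_sum_of_nonneg fun j _ => hl0 j).trans
      (pow_le_pow_left₀ (Finset.sum_nonneg fun j _ => hl0 j) hsum 2)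
  have hlogtop : Real.log (covNum K ((2 : ℝ) ^ J • L)) ≤ 0 :=
    Real.log_nonpos (Nat.cast_nonneg _) (by exact_mod_cast htop)
  have htele := log_covNum_telescope hK hL J
  have hscales : ∑ j ∈ Finset.range J,
      Real.log (covNum (K ∩ (2 * (2 : ℝ) ^ j) • L) (((2 : ℝ) ^ j / 2) • L)) ≤
        70000 * ∑ j ∈ Finset.range J, l j ^ 2 := by
    rw [Finset.mul_sum]
    exact Finset.sum_le_sum fun j _ =>
      scale_bound (hA j) hL (by positivity) Set.inter_subset_right (hZ j)
  nlinarith [sq_nonneg (Real.log N)]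

/-- Both inequalities, with absolute constants. -/
theorem quadratic_duality_both (hK : IsSymBody K) (hL : IsSymBody L) :
    Real.log (covNum K L) ≤
        7000000 * Real.log (covNum (polarBody L) ((1024 : ℝ)⁻¹ • polarBody K)) ^ 2 ∧
      Real.log (covNum (polarBody L) ((1024 : ℝ) • polarBody K)) ≤
        7000000 * Real.log (covNum K L) ^ 2 := by
  constructor
  · simpa using quadratic_duality hK hL
  · have hK' : IsSymBody ((1024 : ℝ) • polarBody K) := hK.polar.smul (by norm_num)
    have h := quadratic_duality hL.polar hK'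
    rw [polar_smul (by norm_num : (1024 : ℝ) ≠ 0), polar_polar hK, polar_polar hL,
      ← one_div, covNum_smul (by norm_num) hK.compact hL] at h
    exact h

end Vale.Agent.P126
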