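import Vale.Agent.P126.Basic

/-!
# Sampling, nets and the bound at one scale (P126)
-/

open scoped Pointwise InnerProductSpace
open Set Metric

namespace Vale.Agent.P126

lemma exp_mul_le_line {c y : ℝ} (hc : 0 < c) (hy : |y| ≤ c) (lam : ℝ) :
    Real.exp (lam * y) ≤ Real.cosh (lam * c) + y / c * Real.sinh (lam * c) := by
  obtain ⟨h1, h2⟩ := abs_le.mp hy
  have ha : 0 ≤ (1 + y / c) / 2 := by
    have : -1 ≤ y / c := by rw [le_div_iff₀ hc]; linarith
    linarith
  have hb : 0 ≤ (1 - y / c) / 2 := by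
    have : y / c ≤ 1 := by rw [div_le_iff₀ hc]; linarith
    linarith
  have := convexOn_exp.2 (Set.mem_univ (lam * c)) (Set.mem_univ (-(lam * c))) ha hb (by ring)
  simp only [smul_eq_mul] at this
  have e : (1 + y / c) / 2 * (lam * c) + (1 - y / c) / 2 * (-(lam * c)) = lam * y := by
    field_simp; ring
  rw [e] at this
  refine this.trans_eq ?_
  rw [Real.cosh_eq, Real.sinh_eq]
  ring

/-- Probabilistic sampling: some `k`-tuple is below `kτ` for all tests at once. -/
lemma sampling {ι κ : Type*} [Fintype ι] [Fintype κ] (w : ι → ℝ) (hw0 : ∀ i, 0 ≤ w i)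
    (hw1 : ∑ i, w i = 1) (u : κ → ι → ℝ) {c τ : ℝ} (hc : 0 < c) (hτ : 0 ≤ τ)
    (hu : ∀ z i, |u z i| ≤ c) (hmean : ∀ z, ∑ i, w i * u z i = 0) (k : ℕ)
    (hk : (Fintype.card κ : ℝ) * Real.exp (-(k * (τ ^ 2 / (2 * c ^ 2)))) < 1) :
    ∃ f : Fin k → ι, ∀ z, ∑ t, u z (f t) ≤ k * τ := by
  classical
  by_contra hcon
  push Not at hcon
  set lam : ℝ := τ / c ^ 2 with hlam
  have hlam0 : 0 ≤ lam := by positivity
  set W : (Fin k → ι) → ℝ := fun f => ∏ t, w (f t) with hW
  have hW0 : ∀ f, 0 ≤ W f := fun f => Finset.prod_nonneg fun t _ => hw0 _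
  have hW1 : ∑ f, W f = 1 := by
    rw [hW, ← Fintype.sum_pow, hw1, one_pow]
  have hone : ∀ f : Fin k → ι, (1 : ℝ) ≤ ∑ z, Real.exp (lam * (∑ t, u z (f t) - k * τ)) := by
    intro f
    obtain ⟨z, hz⟩ := hcon f
    calc (1 : ℝ) ≤ Real.exp (lam * (∑ t, u z (f t) - k * τ)) :=
          Real.one_le_exp (mul_nonneg hlam0 (by linarith))
      _ ≤ _ := Finset.single_le_sum
          (f := fun z => Real.exp (lam * (∑ t, u z (f t) - k * τ)))
          (fun z _ => (Real.exp_pos _).le) (Finset.mem_univ z)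
  have hz : ∀ z, ∑ f, W f * Real.exp (lam * (∑ t, u z (f t) - k * τ)) ≤
      Real.exp (-(k * (τ ^ 2 / (2 * c ^ 2)))) := by
    intro z
    have e : ∀ f : Fin k → ι, W f * Real.exp (lam * (∑ t, u z (f t) - k * τ)) =
        (∏ t, w (f t) * Real.exp (lam * u z (f t))) * Real.exp (-(lam * (k * τ))) := by
      intro f
      rw [Finset.prod_mul_distrib, mul_assoc, ← Real.exp_sum, ← Real.exp_add, hW,
        ← Finset.mul_sum]
      ring_nf
    rw [Finset.sum_congr rfl (fun f _ => e f), ← Finset.sum_mul,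
      ← Fintype.sum_pow (fun i => w i * Real.exp (lam * u z i))]
    have hsum : ∑ i, w i * Real.exp (lam * u z i) ≤ Real.exp ((lam * c) ^ 2 / 2) := by
      calc ∑ i, w i * Real.exp (lam * u z i)
          ≤ ∑ i, w i * (Real.cosh (lam * c) + u z i / c * Real.sinh (lam * c)) :=
            Finset.sum_le_sum fun i _ =>
              mul_le_mul_of_nonneg_left (exp_mul_le_line hc (hu z i) lam) (hw0 i)
        _ = (∑ i, w i) * Real.cosh (lam * c)
              + (∑ i, w i * u z i) * (Real.sinh (lam * c) / c) := by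
            rw [Finset.sum_mul, Finset.sum_mul, ← Finset.sum_add_distrib]
            exact Finset.sum_congr rfl fun i _ => by ring
        _ = Real.cosh (lam * c) := by rw [hw1, hmean]; ring
        _ ≤ _ := Real.cosh_le_exp_half_sq _
    have hnn : 0 ≤ ∑ i, w i * Real.exp (lam * u z i) :=
      Finset.sum_nonneg fun i _ => mul_nonneg (hw0 i) (Real.exp_pos _).le
    calc (∑ i, w i * Real.exp (lam * u z i)) ^ k * Real.exp (-(lam * (k * τ)))
        ≤ Real.exp ((lam * c) ^ 2 / 2) ^ k * Real.exp (-(lam * (k * τ))) := by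
          gcongr
      _ = Real.exp (-(k * (τ ^ 2 / (2 * c ^ 2)))) := by
          rw [← Real.exp_nat_mul, ← Real.exp_add, hlam]
          congr 1
          field_simp
          ring
  have : (1 : ℝ) ≤ (Fintype.card κ : ℝ) * Real.exp (-(k * (τ ^ 2 / (2 * c ^ 2)))) := by
    calc (1 : ℝ) = ∑ f, W f * 1 := by simp only [mul_one]; exact hW1.symm
      _ ≤ ∑ f, W f * ∑ z, Real.exp (lam * (∑ t, u z (f t) - k * τ)) :=
          Finset.sum_le_sum fun f _ => mul_le_mul_of_nonneg_left (hone f) (hW0 f)
      _ = ∑ z, ∑ f, W f * Real.exp (lam * (∑ t, u z (f t) - k * τ)) := by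
          simp only [Finset.mul_sum]
          exact Finset.sum_comm
      _ ≤ ∑ _z : κ, Real.exp (-(k * (τ ^ 2 / (2 * c ^ 2)))) :=
          Finset.sum_le_sum fun z _ => hz z
      _ = _ := by simp
  linarith

variable {E : Type*} [NormedAddCommGroup E] [InnerProductSpace ℝ E] [FiniteDimensional ℝ E]
variable {A L : Set E}

/-- `Z` is a maximal `δ`-separated subset of `D` for the seminorm given by `A`. -/
structure IsNet (A D : Set E) (δ : ℝ) (Z : Finset E) : Prop where
  subset : ↑Z ⊆ D
  sep : ∀ z ∈ Z, ∀ z' ∈ Z, z ≠ z' → ∃ x ∈ A, δ < |⟪x, z - z'⟫_ℝ|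
  near : ∀ y ∈ D, ∃ z ∈ Z, ∀ x ∈ A, |⟪x, y - z⟫_ℝ| ≤ δ

lemma exists_net (hA : IsSymBody A) {D : Set E} (hD : IsCompact D) {δ : ℝ} (hδ : 0 < δ) :
    ∃ Z : Finset E, IsNet A D δ Z := by
  classical
  let P : Finset E → Prop := fun Z =>
    ↑Z ⊆ D ∧ ∀ z ∈ Z, ∀ z' ∈ Z, z ≠ z' → ∃ x ∈ A, δ < |⟪x, z - z'⟫_ℝ|
  set S : Set ℕ := {m | ∃ Z : Finset E, Z.card = m ∧ P Z} with hS
  have hbd : BddAbove S := by
    refine ⟨covNum D ((δ / 2) • polarBody A), ?_⟩
    rintro m ⟨Z, rfl, hZD, hZ⟩
    have := card_le_covNum hA hD (half_pos hδ) (hA.polar.smul (half_pos hδ).ne')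
      (Y := fun z : Z => (z : E)) (fun z => hZD z.2) (fun i j hij => by
        obtain ⟨x, hx, hlt⟩ := hZ i i.2 j j.2 (fun h => hij (Subtype.ext h))
        exact ⟨x, hx, by linarith⟩)
    simpa using this
  have hne : S.Nonempty := ⟨0, ∅, by simp [P]⟩
  obtain ⟨Z, hcard, hZD, hZ⟩ := Nat.sSup_mem hne hbd
  refine ⟨Z, hZD, hZ, fun y hy => ?_⟩
  by_contra hcon
  push Not at hcon
  have hyZ : y ∉ Z := fun hmem => by
    obtain ⟨x, hx, hlt⟩ := hcon y hmem
    simp at hlt
    linarith
  have : (insert y Z).card ∈ S := by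
    refine ⟨insert y Z, rfl, ?_, ?_⟩
    · rw [Finset.coe_insert]
      exact Set.insert_subset hy hZD
    · intro z hz z' hz' hne
      rw [Finset.mem_insert] at hz hz'
      rcases hz with rfl | hz <;> rcases hz' with rfl | hz'
      · exact absurd rfl hne
      · exact hcon z' hz'
      · obtain ⟨x, hx, hlt⟩ := hcon z hz
        exact ⟨x, hx, by rwa [inner_sub_right, abs_sub_comm, ← inner_sub_right]⟩
      · exact hZ z hz z' hz' hne
  have h1 := le_csSup hbd this
  rw [Finset.card_insert_of_notMem hyZ] at h1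
  omega

/-- Few convexly separated points in `A ⊆ 2s • L`. -/
lemma exists_hull (hL : IsSymBody L) {s : ℝ} (hs : 0 < s)
    (hAL : A ⊆ (2 * s) • L) {Z : Finset E} (hZ : IsNet A (polarBody L) (s / 64) Z) :
    ∃ G : Finset E, ↑G ⊆ A ∧ G.card ≤ 65 * Z.card ∧
      A ⊆ convexHull ℝ (G : Set E) + (s / 8) • L := by
  classical
  have hs8 : 0 < s / 8 := by positivity
  let good : (m : ℕ) → (Fin m → E) → Prop := fun m x => (∀ i, x i ∈ A) ∧
    ∀ i, x i ∉ convexHull ℝ (x '' {l | l < i}) + (s / 8) • L
  have hbound : ∀ m (x : Fin m → E), good m x → m ≤ 65 * Z.card := by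
    rintro m x ⟨hxA, hx⟩
    have hy : ∀ i, ∃ y ∈ polarBody L, ∀ l, l < i → ⟪x l, y⟫_ℝ + s / 8 ≤ ⟪x i, y⟫_ℝ := by
      intro i
      obtain ⟨y, hy, hsep⟩ := exists_sep hL hs8 (convex_convexHull ℝ _)
        ((Set.toFinite (x '' {l | l < i})).isCompact_convexHull ℝ) (hx i)
      exact ⟨y, hy, fun l hl => hsep _ (subset_convexHull ℝ _ ⟨l, hl, rfl⟩)⟩
    choose y hy hsep using hy
    choose z hz hnear using fun i => hZ.near (y i) (hy i)
    have hrange : ∀ i, |⟪x i, z i⟫_ℝ| ≤ 2 * s := fun i =>
      abs_inner_le_of_mem_smul hL (by positivity) (hAL (hxA i)) (hZ.subset (hz i))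
    let bin : Fin m → ℕ := fun i => ⌊(⟪x i, z i⟫_ℝ + 2 * s) / (s / 16)⌋₊
    have hbin : ∀ i, bin i ∈ Finset.range 65 := by
      intro i
      rw [Finset.mem_range]
      have := (abs_le.mp (hrange i))
      refine Nat.lt_succ_of_le (Nat.floor_le_of_le ?_)
      rw [div_le_iff₀ (by positivity)]
      push_cast
      linarith
    have key : ∀ i l, l < i → (z l, bin l) ≠ (z i, bin i) := by
      intro i l hl heq
      obtain ⟨hzz, hbb⟩ := Prod.mk.injEq .. ▸ heq
      have h0 := fun j => abs_le.mp (hrange j)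
      have hnn : ∀ j, 0 ≤ (⟪x j, z j⟫_ℝ + 2 * s) / (s / 16) := fun j =>
        div_nonneg (by linarith [(h0 j).1]) (by positivity)
      have h1 := Nat.floor_le (hnn l)
      have h2 := Nat.lt_floor_add_one ((⟪x i, z i⟫_ℝ + 2 * s) / (s / 16))
      have hbb' : (bin l : ℝ) = bin i := by rw [hbb]
      simp only [bin] at hbb'
      rw [hbb', le_div_iff₀ (by positivity)] at h1
      rw [div_lt_iff₀ (by positivity)] at h2
      rw [hzz] at h1
      have h3 := hsep i l hl
      have h4 := abs_le.mp (hnear i (x i) (hxA i))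
      have h5 := abs_le.mp (hnear i (x l) (hxA l))
      rw [inner_sub_right] at h4 h5
      linarith
    have := Finset.card_le_card_of_injOn (s := (Finset.univ : Finset (Fin m)))
      (t := Z ×ˢ Finset.range 65) (fun i => (z i, bin i))
      (fun i _ => Finset.mem_product.mpr ⟨hz i, hbin i⟩)
      (fun i _ l _ hil => by
        rcases lt_trichotomy i l with h | h | h
        · exact absurd hil (key l i h)
        · exact h
        · exact absurd hil.symm (key i l h))
    simp only [Finset.card_univ, Fintype.card_fin, Finset.card_product, Finset.card_range] at this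
    omega
  set S : Set ℕ := {m | ∃ x : Fin m → E, good m x} with hS
  have hbd : BddAbove S := ⟨65 * Z.card, fun m ⟨x, hx⟩ => hbound m x hx⟩
  have hne : S.Nonempty := ⟨0, Fin.elim0, fun i => i.elim0, fun i => i.elim0⟩
  obtain ⟨x, hx⟩ := Nat.sSup_mem hne hbd
  refine ⟨Finset.univ.image x, ?_, ?_, ?_⟩
  · intro g hg
    rw [Finset.coe_image] at hg
    obtain ⟨i, -, rfl⟩ := hg
    exact hx.1 i
  · refine Finset.card_image_le.trans ?_
    simpa using hbound _ x hx
  · intro p hp
    by_contra hnot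
    have : sSup S + 1 ∈ S := by
      refine ⟨Fin.snoc x p, ?_, ?_⟩
      · intro i
        induction i using Fin.lastCases with
        | last => simpa using hp
        | cast i => simpa using hx.1 i
      · intro i
        induction i using Fin.lastCases with
        | last =>
          rw [Fin.snoc_last]
          intro hmem
          refine hnot (Set.add_subset_add_right (convexHull_mono ?_) hmem)
          rintro _ ⟨l, hl, rfl⟩
          obtain ⟨l', rfl⟩ := Fin.exists_castSucc_eq.mpr (ne_of_lt hl)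
          simp
        | cast i =>
          rw [Fin.snoc_castSucc]
          intro hmem
          refine hx.2 i (Set.add_subset_add_right (convexHull_mono ?_) hmem)
          rintro _ ⟨l, hl, rfl⟩
          obtain ⟨l', rfl⟩ := Fin.exists_castSucc_eq.mpr
            (ne_of_lt (lt_trans hl (Fin.castSucc_lt_last i)))
          exact ⟨l', Fin.castSucc_lt_castSucc_iff.mp hl, by simp⟩
    have h1 := le_csSup hbd this
    omega

/-- Bound at one scale: logarithm of `N(A, (s/2) L)` is quadratic in that of the net. -/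
lemma scale_bound (hA : IsSymBody A) (hL : IsSymBody L) {s : ℝ} (hs : 0 < s)
    (hAL : A ⊆ (2 * s) • L) {Z : Finset E} (hZ : IsNet A (polarBody L) (s / 64) Z) :
    Real.log (covNum A ((s / 2) • L)) ≤ 70000 * Real.log Z.card ^ 2 := by
  classical
  obtain ⟨z₀, hz₀, -⟩ := hZ.near 0 hL.polar.zero_mem
  have hcard : 1 ≤ Z.card := Finset.card_pos.mpr ⟨z₀, hz₀⟩
  have hs2 : (0 : ℝ) < s / 2 := by positivity
  rcases eq_or_lt_of_le hcard with h1 | h2
  · -- a single net point: `A ⊆ (s/2) L`
    have hsub : A ⊆ (({0} : Finset E) : Set E) + (s / 2) • L := by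
      intro x hx
      refine ⟨0, by simp, x, (mem_smul_iff_polar hL hs2).mpr ?_, by simp⟩
      intro y hy
      obtain ⟨z, hz, hzy⟩ := hZ.near y hy
      obtain ⟨z', hz', hz0⟩ := hZ.near 0 hL.polar.zero_mem
      obtain rfl : z = z' := Finset.card_le_one.mp h1.ge z hz z' hz'
      have a := abs_le.mp (hzy x hx)
      have b := abs_le.mp (hz0 x hx)
      rw [inner_sub_right] at a b
      rw [inner_zero_right] at b
      linarith
    have := covNum_le hsub
    rw [Finset.card_singleton] at this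
    have h0 : Real.log (covNum A ((s / 2) • L)) ≤ 0 :=
      Real.log_nonpos (Nat.cast_nonneg _) (by exact_mod_cast this)
    exact h0.trans (by positivity)
  · obtain ⟨G, hGA, hGcard, hGcov⟩ := exists_hull hL hs hAL hZ
    set M : ℝ := (Z.card : ℝ) with hM
    have hM2 : 2 ≤ M := by rw [hM]; exact_mod_cast h2
    set k : ℕ := ⌈2048 * (Real.log (2 * M) + 1)⌉₊ with hk
    have hlog2M : 0 ≤ Real.log (2 * M) := Real.log_nonneg (by linarith)
    have hkpos : 0 < k := Nat.ceil_pos.mpr (by positivity)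
    let T : Finset E := Finset.univ.image
      (fun f : Fin k → {g : E // g ∈ G} => (1 / (k : ℝ)) • ∑ t, (f t : E))
    have hTcard : T.card ≤ G.card ^ k := by
      refine Finset.card_image_le.trans ?_
      simp
    have hcov : A ⊆ (T : Set E) + (s / 2) • L := by
      intro x hx
      obtain ⟨p, hp, r, hr, hpr⟩ := hGcov hx
      have hpA : p ∈ A := convexHull_min hGA hA.convex hp
      obtain ⟨w, hw0, hw1, hwp⟩ := Finset.mem_convexHull'.mp hp
      have hc : (0 : ℝ) < 4 * s := by positivity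
      have hτ : (0 : ℝ) ≤ s / 8 := by positivity
      let u : {z : E // z ∈ Z} × Bool → {g : E // g ∈ G} → ℝ := fun zb g =>
        (if zb.2 then (1 : ℝ) else -1) * ⟪(g : E) - p, (zb.1 : E)⟫_ℝ
      have hu : ∀ zb g, |u zb g| ≤ 4 * s := by
        intro zb g
        simp only [u, abs_mul, inner_sub_left]
        have : |(if zb.2 then (1 : ℝ) else -1)| = 1 := by split <;> simp
        rw [this, one_mul]
        have a := abs_inner_le_of_mem_smul hL (by positivity) (hAL (hGA g.2))
          (hZ.subset zb.1.2)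
        have b := abs_inner_le_of_mem_smul hL (by positivity) (hAL hpA) (hZ.subset zb.1.2)
        exact (abs_sub _ _).trans (by linarith)
      have hwsum : ∑ g : {g : E // g ∈ G}, w g = 1 := by
        rw [← hw1]; exact Finset.sum_coe_sort G w
      have hwp' : ∑ g : {g : E // g ∈ G}, w g • (g : E) = p := by
        rw [← hwp]; exact Finset.sum_coe_sort G (fun g => w g • g)
      have hmean : ∀ zb, ∑ g : {g : E // g ∈ G}, w g * u zb g = 0 := by
        intro zb
        have : ∑ g : {g : E // g ∈ G}, w g * ⟪(g : E) - p, (zb.1 : E)⟫_ℝ = 0 := by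
          simp only [← real_inner_smul_left, ← sum_inner, smul_sub, Finset.sum_sub_distrib,
            ← Finset.sum_smul, hwp', hwsum, one_smul, sub_self, inner_zero_left]
        calc ∑ g : {g : E // g ∈ G}, w g * u zb g = (if zb.2 then (1 : ℝ) else -1) *
            ∑ g : {g : E // g ∈ G}, w g * ⟪(g : E) - p, (zb.1 : E)⟫_ℝ := by
              rw [Finset.mul_sum]
              exact Finset.sum_congr rfl fun g _ => by simp only [u]; ring
          _ = 0 := by rw [this, mul_zero]
      have hprob : (Fintype.card ({z : E // z ∈ Z} × Bool) : ℝ) *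
          Real.exp (-(k * ((s / 8) ^ 2 / (2 * (4 * s) ^ 2)))) < 1 := by
        have e : (s / 8) ^ 2 / (2 * (4 * s) ^ 2) = 1 / 2048 := by
          field_simp; ring
        rw [e]
        have hk' : 2048 * (Real.log (2 * M) + 1) ≤ k := Nat.le_ceil _
        have hle : Real.exp (-((k : ℝ) * (1 / 2048))) ≤ Real.exp (-(Real.log (2 * M) + 1)) :=
          Real.exp_le_exp.mpr (by linarith)
        have e2 : Real.exp (-(Real.log (2 * M) + 1)) = (2 * M)⁻¹ * Real.exp (-1) := by
          rw [neg_add, Real.exp_add, Real.exp_neg, Real.exp_log (by linarith)]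
        have hc2 : (Fintype.card ({z : E // z ∈ Z} × Bool) : ℝ) = 2 * M := by
          simp [hM]; ring
        rw [hc2]
        calc 2 * M * Real.exp (-((k : ℝ) * (1 / 2048)))
            ≤ 2 * M * ((2 * M)⁻¹ * Real.exp (-1)) := by
              rw [← e2]; gcongr
          _ = Real.exp (-1) := by field_simp
          _ < 1 := Real.exp_lt_one_iff.mpr (by norm_num)
      obtain ⟨f, hf⟩ := sampling (fun g : {g : E // g ∈ G} => w g) (fun g => hw0 g g.2) hwsum
        u hc hτ hu hmean k hprob
      set avg : E := (1 / (k : ℝ)) • ∑ t, (f t : E) with havg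
      have havgA : avg ∈ A := by
        rw [havg, Finset.smul_sum]
        refine hA.convex.sum_mem (fun _ _ => by positivity) ?_ (fun t _ => hGA (f t).2)
        simp [hkpos.ne']
      refine ⟨avg, Finset.mem_image.mpr ⟨f, Finset.mem_univ _, rfl⟩, x - avg,
        (mem_smul_iff_polar hL hs2).mpr ?_, by simp⟩
      intro y hy
      obtain ⟨z, hz, hzy⟩ := hZ.near y hy
      have hfz := hf (⟨z, hz⟩, false)
      simp only [u, Bool.false_eq_true, if_false, neg_one_mul, Finset.sum_neg_distrib,
        inner_sub_left, Finset.sum_sub_distrib, Finset.sum_const, Finset.card_univ,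
        Fintype.card_fin, nsmul_eq_mul] at hfz
      have havgz : ⟪avg, z⟫_ℝ = (∑ t, ⟪(f t : E), z⟫_ℝ) / k := by
        rw [havg, real_inner_smul_left, sum_inner]; ring
      have hkR : (0 : ℝ) < k := by exact_mod_cast hkpos
      have h1 : ⟪p, z⟫_ℝ - ⟪avg, z⟫_ℝ ≤ s / 8 := by
        rw [havgz, sub_le_iff_le_add, ← sub_le_iff_le_add', le_div_iff₀ hkR]
        linarith
      have h2 : ⟪r, y⟫_ℝ ≤ s / 8 := inner_le_of_mem_smul (by positivity) hr hy
      have h3 := abs_le.mp (hzy p hpA)
      have h4 := abs_le.mp (hzy avg havgA)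
      rw [inner_sub_right] at h3 h4
      rw [← hpr, inner_sub_left, inner_add_left]
      linarith
    have hN := (covNum_le hcov).trans hTcard
    have hNpos : 1 ≤ covNum A ((s / 2) • L) :=
      covNum_pos hA.compact ⟨0, hA.zero_mem⟩ (hL.smul hs2.ne')
    have hG' : (G.card : ℝ) ≤ 65 * M := by rw [hM]; exact_mod_cast hGcard
    have hNM : (covNum A ((s / 2) • L) : ℝ) ≤ (65 * M) ^ k := by
      calc (covNum A ((s / 2) • L) : ℝ) ≤ (G.card : ℝ) ^ k := by exact_mod_cast hN
        _ ≤ (65 * M) ^ k := pow_le_pow_left₀ (Nat.cast_nonneg _) hG' k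
    have hlog := Real.log_le_log (by exact_mod_cast hNpos) hNM
    rw [Real.log_pow] at hlog
    have hl2 : Real.log 2 ≤ Real.log M := Real.log_le_log (by norm_num) hM2
    have hl2' : (0.6931471803 : ℝ) < Real.log 2 := Real.log_two_gt_d9
    have hkle : (k : ℝ) ≤ 8200 * Real.log M := by
      have := Nat.ceil_lt_add_one (show 0 ≤ 2048 * (Real.log (2 * M) + 1) by positivity)
      rw [← hk, Real.log_mul (by norm_num) (by linarith)] at this
      linarith
    have h65 : Real.log (65 * M) ≤ 8 * Real.log M := by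
      have : Real.log 65 ≤ 7 * Real.log 2 := by
        calc Real.log 65 ≤ Real.log (2 ^ 7) := Real.log_le_log (by norm_num) (by norm_num)
          _ = 7 * Real.log 2 := by rw [Real.log_pow]; norm_num
      rw [Real.log_mul (by norm_num) (by linarith)]
      linarith
    have hlM : 0 ≤ Real.log M := by linarith
    calc Real.log (covNum A ((s / 2) • L)) ≤ k * Real.log (65 * M) := hlog
      _ ≤ (8200 * Real.log M) * (8 * Real.log M) := by
          refine mul_le_mul hkle h65 (Real.log_nonneg (by linarith)) (by linarith)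
      _ ≤ 70000 * Real.log M ^ 2 := by nlinarith

end Vale.Agent.P126
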