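import Vale.Agent.P126.Main

/-!
# Hulls and telescoping with a large ratio of scales (P126)
-/

open scoped Pointwise InnerProductSpace
open Set Metric

namespace Vale.Agent.P126

variable {E : Type*} [NormedAddCommGroup E] [InnerProductSpace ℝ E] [FiniteDimensional ℝ E]
variable {A K L : Set E}

/-- Few convexly separated points in `A ⊆ Ms • L`. -/
lemma exists_hull_ratio (hL : IsSymBody L) {s : ℝ} (hs : 0 < s) {M : ℕ}
    (hAL : A ⊆ ((M : ℝ) * s) • L) (hM : 1 ≤ M) {Z : Finset E} {d : ℝ} (hd : d ≤ s / 64)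
    (hZ : IsNet A (polarBody L) d Z) :
    ∃ G : Finset E, ↑G ⊆ A ∧ G.card ≤ (32 * M + 1) * Z.card ∧
      A ⊆ convexHull ℝ (G : Set E) + (s / 8) • L := by
  classical
  have hs8 : 0 < s / 8 := by positivity
  have hMs : 0 < (M : ℝ) * s := by
    have : (1 : ℝ) ≤ M := by exact_mod_cast hM
    positivity
  let good : (m : ℕ) → (Fin m → E) → Prop := fun m x => (∀ i, x i ∈ A) ∧
    ∀ i, x i ∉ convexHull ℝ (x '' {l | l < i}) + (s / 8) • L
  have hbound : ∀ m (x : Fin m → E), good m x → m ≤ (32 * M + 1) * Z.card := by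
    rintro m x ⟨hxA, hx⟩
    have hy : ∀ i, ∃ y ∈ polarBody L, ∀ l, l < i → ⟪x l, y⟫_ℝ + s / 8 ≤ ⟪x i, y⟫_ℝ := by
      intro i
      obtain ⟨y, hy, hsep⟩ := exists_sep hL hs8 (convex_convexHull ℝ _)
        ((Set.toFinite (x '' {l | l < i})).isCompact_convexHull ℝ) (hx i)
      exact ⟨y, hy, fun l hl => hsep _ (subset_convexHull ℝ _ ⟨l, hl, rfl⟩)⟩
    choose y hy hsep using hy
    choose z hz hnear using fun i => hZ.near (y i) (hy i)
    have hrange : ∀ i, |⟪x i, z i⟫_ℝ| ≤ (M : ℝ) * s := fun i =>
      abs_inner_le_of_mem_smul hL hMs (hAL (hxA i)) (hZ.subset (hz i))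
    let bin : Fin m → ℕ := fun i => ⌊(⟪x i, z i⟫_ℝ + (M : ℝ) * s) / (s / 16)⌋₊
    have hbin : ∀ i, bin i ∈ Finset.range (32 * M + 1) := by
      intro i
      rw [Finset.mem_range]
      have := (abs_le.mp (hrange i))
      refine Nat.lt_succ_of_le (Nat.floor_le_of_le ?_)
      rw [div_le_iff₀ (by positivity)]
      push_cast
      linarith
    have key : ∀ i l, l < i → (z l, bin l) ≠ (z i, bin i) := by
      intro i l hl heq
      obtain ⟨hzz, hbb⟩ := Prod.mk.injEq .. ▸ heq
      have h0 := fun j => abs_le.mp (hrange j)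
      have hnn : ∀ j, 0 ≤ (⟪x j, z j⟫_ℝ + (M : ℝ) * s) / (s / 16) := fun j =>
        div_nonneg (by linarith [(h0 j).1]) (by positivity)
      have h1 := Nat.floor_le (hnn l)
      have h2 := Nat.lt_floor_add_one ((⟪x i, z i⟫_ℝ + (M : ℝ) * s) / (s / 16))
      have hbb' : (bin l : ℝ) = bin i := by rw [hbb]
      simp only [bin] at hbb'
      rw [hbb', le_div_iff₀ (by positivity)] at h1
      rw [div_lt_iff₀ (by positivity)] at h2
      rw [hzz] at h1
      have h3 := hsep i l hl
      have h4 := abs_le.mp (hnear i (x i) (hxA i))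
      have h5 := abs_le.mp (hnear i (x l) (hxA l))
      rw [inner_sub_right] at h4 h5
      linarith
    have := Finset.card_le_card_of_injOn (s := (Finset.univ : Finset (Fin m)))
      (t := Z ×ˢ Finset.range (32 * M + 1)) (fun i => (z i, bin i))
      (fun i _ => Finset.mem_product.mpr ⟨hz i, hbin i⟩)
      (fun i _ l _ hil => by
        rcases lt_trichotomy i l with h | h | h
        · exact absurd hil (key l i h)
        · exact h
        · exact absurd hil.symm (key i l h))
    simp only [Finset.card_univ, Fintype.card_fin, Finset.card_product, Finset.card_range] at this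
    rwa [mul_comm] at this
  set S : Set ℕ := {m | ∃ x : Fin m → E, good m x} with hS
  have hbd : BddAbove S := ⟨(32 * M + 1) * Z.card, fun m ⟨x, hx⟩ => hbound m x hx⟩
  have hne : S.Nonempty := ⟨0, Fin.elim0, fun i => i.elim0, fun i => i.elim0⟩
  obtain ⟨x, hx⟩ := Nat.sSup_mem hne hbd
  refine ⟨Finset.univ.image x, ?_, ?_, ?_⟩
  · intro g hg
    rw [Finset.coe_image] at hg
    obtain ⟨i, -, rfl⟩ := hg
    exact hx.1 i
  · refine Finset.card_image_le.trans ?_
    simpa using hbound _ x hx
  · intro p hp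
    by_contra hnot
    have : sSup S + 1 ∈ S := by
      refine ⟨Fin.snoc x p, ?_, ?_⟩
      · intro i
        induction i using Fin.lastCases with
        | last => simpa using hp
        | cast i => simpa using hx.1 i
      · intro i
        induction i using Fin.lastCases with
        | last =>
          rw [Fin.snoc_last]
          intro hmem
          refine hnot (Set.add_subset_add_right (convexHull_mono ?_) hmem)
          rintro _ ⟨l, hl, rfl⟩
          obtain ⟨l', rfl⟩ := Fin.exists_castSucc_eq.mpr (ne_of_lt hl)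
          simp
        | cast i =>
          rw [Fin.snoc_castSucc]
          intro hmem
          refine hx.2 i (Set.add_subset_add_right (convexHull_mono ?_) hmem)
          rintro _ ⟨l, hl, rfl⟩
          obtain ⟨l', rfl⟩ := Fin.exists_castSucc_eq.mpr
            (ne_of_lt (lt_trans hl (Fin.castSucc_lt_last i)))
          exact ⟨l', Fin.castSucc_lt_castSucc_iff.mp hl, by simp⟩
    have h1 := le_csSup hbd this
    omega

omit [FiniteDimensional ℝ E] in
/-- One step of the telescoping, from scale `t` down to scale `s`. -/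
lemma covNum_step_ratio (hK : IsSymBody K) (hL : IsSymBody L) {s t : ℝ} (hs : 0 < s)
    (ht : 0 < t) :
    covNum K (s • L) ≤ covNum K (t • L) * covNum (K ∩ t • L) ((s / 2) • L) := by
  classical
  obtain ⟨S, hScard, hS⟩ := covNum_spec hK.compact (hL.smul ht.ne')
  obtain ⟨T, hTcard, hT⟩ := covNum_spec (hK.inter (hL.smul ht.ne')).compact
    (hL.smul (t := s / 2) (by positivity))
  let kf : E → E := fun c =>
    if h : ∃ k ∈ K, k - c ∈ t • L then h.choose else 0
  let U : Finset E := (S ×ˢ T).image (fun ct => kf ct.1 + (2 : ℝ) • ct.2)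
  have hU : U.card ≤ covNum K (t • L) * covNum (K ∩ t • L) ((s / 2) • L) := by
    refine Finset.card_image_le.trans ?_
    rw [Finset.card_product, hScard, hTcard]
  refine le_trans (covNum_le (S := U) ?_) hU
  intro x hx
  obtain ⟨c, hc, d, hd, hxcd⟩ := hS hx
  have hex : ∃ k ∈ K, k - c ∈ t • L := ⟨x, hx, by rw [← hxcd]; simpa using hd⟩
  have hk : kf c ∈ K ∧ kf c - c ∈ t • L := by
    simp only [kf, dif_pos hex]
    exact hex.choose_spec
  have hhalf : (1 / 2 : ℝ) • (x - kf c) ∈ K ∩ t • L := by
    constructor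
    · have := hK.convex hx (hK.neg_mem hk.1) (a := (1 / 2 : ℝ)) (b := (1 / 2 : ℝ))
        (by norm_num) (by norm_num) (by norm_num)
      convert this using 1
      module
    · have h2L := hL.smul ht.ne'
      have := h2L.convex hd (h2L.neg_mem hk.2) (a := (1 / 2 : ℝ)) (b := (1 / 2 : ℝ))
        (by norm_num) (by norm_num) (by norm_num)
      convert this using 1
      rw [← hxcd]
      module
  obtain ⟨u, hu, l, hl, htl⟩ := hT hhalf
  obtain ⟨l', hl', rfl⟩ := hl
  refine ⟨kf c + (2 : ℝ) • u, ?_, s • l', Set.smul_mem_smul_set hl', ?_⟩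
  · exact Finset.mem_image.mpr ⟨(c, u), Finset.mk_mem_product hc hu, rfl⟩
  · have h2 : x - kf c = (2 : ℝ) • (u + (s / 2) • l') := by
      rw [show u + (s / 2) • l' = (1 / 2 : ℝ) • (x - kf c) from htl]
      module
    calc kf c + (2 : ℝ) • u + s • l' = kf c + (2 : ℝ) • (u + (s / 2) • l') := by module
      _ = x := by rw [← h2]; abel

end Vale.Agent.P126
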