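import Vale.Agent.P126.TiltStage

/-!
# One scale by a fixed number of tilts (P126)
-/

open scoped Pointwise InnerProductSpace
open Set Metric

namespace Vale.Agent.P126.Tilt

variable {E : Type*} [NormedAddCommGroup E] [InnerProductSpace ℝ E] [FiniteDimensional ℝ E]
variable {A L : Set E}

/-- The entropy budget after `j` tilts. -/
noncomputable def budget (B0 ρ : ℝ) (T j : ℕ) : ℝ := B0 * (32 * T * ρ) ^ j

/-- The exponent selected by a code. -/
noncomputable def code {G : Finset E} (B0 ρ : ℝ) (T : ℕ) : (j : ℕ) → (Fin j → E) → G → ℝ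
  | 0, _, _ => 0
  | j + 1, f, i => code B0 ρ T j (fun l => f l.castSucc) i +
      ⟪(i : E), (2 * budget B0 ρ T j / (1 / (8 * T))) • f (Fin.last j)⟫_ℝ

/-- At one scale, `T` tilts suffice. -/
lemma scale_bound_tilt (hA : IsSymBody A) (hL : IsSymBody L) {M : ℕ} (hM : 1 ≤ M)
    (hAL : A ⊆ (M : ℝ) • L) {ρ : ℝ} (hρ : 0 < ρ) (hρ64 : ρ ≤ 1 / 64) {Z : Finset E}
    (hZ : IsNet A (polarBody L) ρ Z) {T : ℕ} (hT : 1 ≤ T)
    (hsmall : (Real.log ((32 * M + 1) * Z.card : ℕ) + 1) * (32 * T * ρ) ^ T ≤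
      1 / (256 * (M : ℝ) ^ 2)) :
    covNum A ((1 / 2 : ℝ) • L) ≤ Z.card ^ T := by
  classical
  obtain ⟨G, hGA, hGcard, hGhull⟩ := exists_hull_ratio (s := 1) hL one_pos
    (by simpa using hAL) hM (d := ρ) (by linarith) hZ
  have hGne : G.Nonempty := by
    obtain ⟨c, hc, -⟩ := hGhull hA.zero_mem
    have : (convexHull ℝ (G : Set E)).Nonempty := ⟨c, hc⟩
    rw [convexHull_nonempty_iff] at this
    exact_mod_cast this
  haveI : Nonempty G := hGne.to_subtype
  set D := polarBody L
  have hD0 : (0 : E) ∈ D := hL.polar.zero_mem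
  have hMR : (1 : ℝ) ≤ M := by exact_mod_cast hM
  have hr : ∀ i : G, ∀ z ∈ D, |⟪(i : E), z⟫_ℝ| ≤ (M : ℝ) := fun i z hz =>
    abs_inner_le_of_mem_smul hL (by linarith) (hAL (hGA i.2)) hz
  have hnet : ∀ z ∈ D, ∃ z' ∈ Z, ∀ i : G, |⟪(i : E), z - z'⟫_ℝ| ≤ ρ := by
    intro z hz
    obtain ⟨z', hz', h⟩ := hZ.near z hz
    exact ⟨z', hz', fun i => h i (hGA i.2)⟩
  set B0 := Real.log ((32 * M + 1) * Z.card : ℕ) + 1 with hB0
  set p0 : G → ℝ := fun _ => 1 / (G.card : ℝ) with hp0
  have hGc : (0 : ℝ) < G.card := by exact_mod_cast hGne.card_pos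
  have hp0pos : ∀ i, 0 < p0 i := fun i => by simp only [hp0]; positivity
  have hp0sum : ∑ i, p0 i = 1 := by simp [hp0, hGc.ne']
  have hB0pos : 0 < B0 := by
    have := Real.log_natCast_nonneg ((32 * M + 1) * Z.card)
    rw [hB0]; linarith
  have hTpos : (0 : ℝ) < T := by exact_mod_cast hT
  have hBj : ∀ j, 0 < budget B0 ρ T j := fun j => by unfold budget; positivity
  -- every point near the hull is reached by `j` tilts
  have hind : ∀ c ∈ convexHull ℝ (G : Set E), ∀ j ≤ T, ∃ f : Fin j → E, (∀ l, f l ∈ Z) ∧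
      ∃ q : G → ℝ, (∀ i, 0 ≤ q i) ∧ ∑ i, q i = 1 ∧
        relEnt q (gibbs p0 (code B0 ρ T j f)) ≤ budget B0 ρ T j ∧
        ∀ z ∈ D, ⟪c, z⟫_ℝ ≤ ∑ i : G, q i * ⟪(i : E), z⟫_ℝ + j * (1 / (8 * T)) := by
    intro c hc j
    induction j with
    | zero =>
      intro _
      obtain ⟨w, hw0, hw1, hwc⟩ := Finset.mem_convexHull'.1 hc
      refine ⟨Fin.elim0, fun l => l.elim0, fun i => w i, fun i => hw0 i i.2, ?_, ?_, ?_⟩
      · rw [← hw1]; exact Finset.sum_coe_sort G w
      · have hg : gibbs p0 (code (G := G) B0 ρ T 0 Fin.elim0) = p0 := by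
          funext i
          simp only [gibbs, code, Real.exp_zero, mul_one, hp0sum, div_one]
        rw [hg, budget, pow_zero, mul_one]
        have hsum : ∑ i : G, w i = 1 := by rw [← hw1]; exact Finset.sum_coe_sort G w
        calc relEnt (fun i : G => w i) p0 ≤ ∑ i : G, w i * Real.log G.card := by
              refine Finset.sum_le_sum fun i _ => ?_
              rcases (hw0 i i.2).eq_or_lt with h | h
              · simp [h.symm]
              · refine mul_le_mul_of_nonneg_left ?_ h.le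
                simp only [hp0, div_div_eq_mul_div, div_one]
                refine Real.log_le_log (by positivity) ?_
                have : w i ≤ 1 := hw1 ▸ Finset.single_le_sum (fun y hy => hw0 y hy) i.2
                nlinarith
          _ = Real.log G.card := by rw [← Finset.sum_mul, hsum, one_mul]
          _ ≤ B0 := by
              rw [hB0]
              have := Real.log_le_log hGc (Nat.cast_le.2 hGcard)
              push_cast at this ⊢
              linarith
      · intro z _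
        simp only [Nat.cast_zero, zero_mul, add_zero]
        rw [← hwc, sum_inner, ← Finset.sum_coe_sort G]
        simp [real_inner_smul_left]
    | succ j ih =>
      intro hj
      obtain ⟨f, hf, q, hq, hq1, hqB, hqc⟩ := ih (by omega)
      obtain ⟨z', hz', q', hq', hq'1, hq'B, hq'c⟩ := stage hL.polar.compact hL.polar.convex hD0
        (fun i : G => (i : E)) hr hnet (gibbs_nonneg hp0pos _)
        (gibbs_sum hp0pos (code B0 ρ T j f)) hq hq1 (hBj j) hqB
        (show (0 : ℝ) < 1 / (8 * T) by positivity) hqc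
      refine ⟨Fin.snoc f z', ?_, q', hq', hq'1, ?_, ?_⟩
      · intro l
        induction l using Fin.lastCases with
        | last => simpa using hz'
        | cast i => simpa using hf i
      · rw [gibbs_gibbs hp0pos] at hq'B
        have e : code B0 ρ T (j + 1) (Fin.snoc f z') = code B0 ρ T j f + fun i : G =>
            ⟪(i : E), (2 * budget B0 ρ T j / (1 / (8 * T))) • z'⟫_ℝ := by
          funext i
          simp [code]
        rw [e]
        refine hq'B.trans (le_of_eq ?_)
        simp only [budget, pow_succ]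
        field_simp
        ring
      · intro z hz
        refine (hq'c z hz).trans (le_of_eq ?_)
        push_cast
        ring
  -- the centres
  let cen : (Fin T → Z) → E := fun f =>
    ∑ i : G, gibbs p0 (code B0 ρ T T fun l => (f l : E)) i • (i : E)
  refine le_trans (covNum_le (S := Finset.univ.image cen) ?_)
    (Finset.card_image_le.trans (le_of_eq (by simp)))
  intro x hx
  obtain ⟨c, hc, d, hd, hcd⟩ := hGhull hx
  obtain ⟨f, hf, q, hq, hq1, hqB, hqc⟩ := hind c hc T le_rfl
  let f' : Fin T → Z := fun l => ⟨f l, hf l⟩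
  refine ⟨cen f', by simp, x - cen f', ?_, by simp⟩
  rw [mem_smul_iff_polar hL (by norm_num)]
  intro z hz
  have h1 : ⟪x, z⟫_ℝ = ⟪c, z⟫_ℝ + ⟪d, z⟫_ℝ := by rw [← hcd, inner_add_left]
  have h2 : ⟪d, z⟫_ℝ ≤ 1 / 8 := inner_le_of_mem_smul (by norm_num) hd hz
  have h3 := mean_sub_le (gibbs_nonneg hp0pos (code B0 ρ T T f)) (gibbs_sum hp0pos _) hq hq1 hMR
    (u := fun i : G => ⟪(i : E), z⟫_ℝ) (fun i => hr i z hz) hqB
  have h4 : 16 * (M : ℝ) ^ 2 * budget B0 ρ T T ≤ 1 / 16 := by
    rw [budget]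
    calc 16 * (M : ℝ) ^ 2 * (B0 * (32 * T * ρ) ^ T)
        ≤ 16 * (M : ℝ) ^ 2 * (1 / (256 * (M : ℝ) ^ 2)) :=
          mul_le_mul_of_nonneg_left hsmall (by positivity)
      _ = 1 / 16 := by field_simp; norm_num
  have h5 : (T : ℝ) * (1 / (8 * T)) = 1 / 8 := by field_simp
  have h6 : ⟪cen f', z⟫_ℝ = ∑ i : G, gibbs p0 (code B0 ρ T T f) i * ⟪(i : E), z⟫_ℝ := by
    simp only [cen, sum_inner, real_inner_smul_left, f']
  rw [inner_sub_left, h1, h6]
  linarith [hqc z hz]

end Vale.Agent.P126.Tilt
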