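import Vale.Agent.P126.TiltHull

/-!
# Exponential tilts: a point near a hull is named by few functionals (P126)
-/

open scoped Pointwise InnerProductSpace
open Set Metric

namespace Vale.Agent.P126.Tilt

section Entropy

variable {ι : Type*} [Fintype ι]

/-- Relative entropy of weights `q` with respect to positive weights `p`. -/
noncomputable def relEnt (q p : ι → ℝ) : ℝ := ∑ i, q i * Real.log (q i / p i)

/-- The Gibbs weights of `v` over `p`. -/
noncomputable def gibbs (p : ι → ℝ) (v : ι → ℝ) (i : ι) : ℝ :=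
  p i * Real.exp (v i) / ∑ j, p j * Real.exp (v j)

lemma sum_exp_pos {p : ι → ℝ} (hp : ∀ i, 0 < p i) [Nonempty ι] (v : ι → ℝ) :
    0 < ∑ j, p j * Real.exp (v j) :=
  Finset.sum_pos (fun j _ => mul_pos (hp j) (Real.exp_pos _)) Finset.univ_nonempty

/-- The Gibbs variational inequality. -/
lemma gibbs_ineq [Nonempty ι] {q p : ι → ℝ} (hp : ∀ i, 0 < p i) (hq : ∀ i, 0 ≤ q i)
    (hq1 : ∑ i, q i = 1) (v : ι → ℝ) :
    ∑ i, q i * v i - relEnt q p ≤ Real.log (∑ i, p i * Real.exp (v i)) := by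
  set S := ∑ i, p i * Real.exp (v i) with hS
  have hSpos : 0 < S := sum_exp_pos hp v
  have hterm : ∀ i, q i * (v i - Real.log (q i / p i) - Real.log S) ≤
      p i * Real.exp (v i) / S - q i := by
    intro i
    rcases (hq i).eq_or_lt with h | h
    · rw [← h]
      have := hp i
      simp
      positivity
    · have e : v i - Real.log (q i / p i) - Real.log S =
          Real.log (p i * Real.exp (v i) / S / q i) := by
        rw [Real.log_div (by positivity [hp i]) h.ne', Real.log_div (by positivity [hp i]) hSpos.ne',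
          Real.log_mul (hp i).ne' (Real.exp_pos _).ne', Real.log_exp,
          Real.log_div h.ne' (hp i).ne']
        ring
      rw [e]
      calc q i * Real.log (p i * Real.exp (v i) / S / q i)
          ≤ q i * (p i * Real.exp (v i) / S / q i - 1) :=
            mul_le_mul_of_nonneg_left (Real.log_le_sub_one_of_pos (by positivity [hp i])) h.le
        _ = _ := by field_simp
  have := Finset.sum_le_sum (s := Finset.univ) fun i _ => hterm i
  simp only [mul_sub, Finset.sum_sub_distrib, ← Finset.sum_mul, hq1, one_mul, ← Finset.sum_div,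
    ← hS, div_self hSpos.ne', sub_self] at this
  simp only [relEnt]
  linarith

lemma gibbs_nonneg [Nonempty ι] {p : ι → ℝ} (hp : ∀ i, 0 < p i) (v : ι → ℝ) (i : ι) :
    0 < gibbs p v i :=
  div_pos (mul_pos (hp i) (Real.exp_pos _)) (sum_exp_pos hp v)

lemma gibbs_sum [Nonempty ι] {p : ι → ℝ} (hp : ∀ i, 0 < p i) (v : ι → ℝ) :
    ∑ i, gibbs p v i = 1 := by
  simp only [gibbs, ← Finset.sum_div]
  exact div_self (sum_exp_pos hp v).ne'

lemma gibbs_gibbs [Nonempty ι] {p : ι → ℝ} (hp : ∀ i, 0 < p i) (v w : ι → ℝ) :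
    gibbs (gibbs p v) w = gibbs p (v + w) := by
  funext i
  have h := (sum_exp_pos hp v).ne'
  simp only [gibbs, Pi.add_apply, Real.exp_add, div_mul_eq_mul_div, ← Finset.sum_div]
  field_simp

/-- Moving the exponent by at most `d` moves the Gibbs weights by at most `2 d` in relative
entropy. -/
lemma relEnt_gibbs_le [Nonempty ι] {p : ι → ℝ} (hp : ∀ i, 0 < p i) {v w : ι → ℝ} {d : ℝ}
    (hd : ∀ i, |v i - w i| ≤ d) : relEnt (gibbs p v) (gibbs p w) ≤ 2 * d := by
  set S := ∑ j, p j * Real.exp (v j) with hS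
  set S' := ∑ j, p j * Real.exp (w j) with hS'
  have h1 : 0 < S := sum_exp_pos hp v
  have h2 : 0 < S' := sum_exp_pos hp w
  have hS'le : S' ≤ Real.exp d * S := by
    rw [hS, hS', Finset.mul_sum]
    refine Finset.sum_le_sum fun j _ => ?_
    rw [← mul_assoc, mul_comm (Real.exp d), mul_assoc, ← Real.exp_add]
    exact mul_le_mul_of_nonneg_left (Real.exp_le_exp.2 (by linarith [(abs_le.1 (hd j)).1])) (hp j).le
  have hlog : Real.log S' - Real.log S ≤ d := by
    have := Real.log_le_log h2 hS'le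
    rw [Real.log_mul (Real.exp_pos _).ne' h1.ne', Real.log_exp] at this
    linarith
  calc relEnt (gibbs p v) (gibbs p w) ≤ ∑ i, gibbs p v i * (2 * d) := by
        refine Finset.sum_le_sum fun i _ => mul_le_mul_of_nonneg_left ?_ (gibbs_nonneg hp v i).le
        simp only [gibbs, ← hS, ← hS']
        rw [Real.log_div (by positivity [hp i]) (by positivity [hp i]),
          Real.log_div (by positivity [hp i]) h1.ne', Real.log_div (by positivity [hp i]) h2.ne',
          Real.log_mul (hp i).ne' (Real.exp_pos _).ne', Real.log_mul (hp i).ne' (Real.exp_pos _).ne',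
          Real.log_exp, Real.log_exp]
        linarith [(abs_le.1 (hd i)).2]
    _ = 2 * d := by rw [← Finset.sum_mul, gibbs_sum hp, one_mul]

lemma log_mgf_le [Nonempty ι] {p u : ι → ℝ} (hp : ∀ i, 0 < p i) (hp1 : ∑ i, p i = 1) {t R : ℝ}
    (ht : 0 ≤ t) (hu : ∀ i, |u i| ≤ R) (htR : t * R ≤ 1) :
    Real.log (∑ i, p i * Real.exp (t * u i)) ≤ t * ∑ i, p i * u i + t ^ 2 * R ^ 2 := by
  refine (Real.log_le_sub_one_of_pos (sum_exp_pos hp _)).trans ?_
  have hterm : ∀ i, p i * Real.exp (t * u i) ≤ p i * (1 + t * u i + t ^ 2 * R ^ 2) := by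
    intro i
    refine mul_le_mul_of_nonneg_left ?_ (hp i).le
    have h1 : |t * u i| ≤ t * R := by
      rw [abs_mul, abs_of_nonneg ht]; exact mul_le_mul_of_nonneg_left (hu i) ht
    have h2 := (abs_le.1 (Real.abs_exp_sub_one_sub_id_le (h1.trans htR))).2
    have h3 : (t * u i) ^ 2 ≤ t ^ 2 * R ^ 2 := by
      rw [← sq_abs (t * u i), ← mul_pow]
      exact pow_le_pow_left₀ (abs_nonneg _) h1 2
    linarith
  have := Finset.sum_le_sum (s := Finset.univ) fun i _ => hterm i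
  simp only [mul_add, mul_one, Finset.sum_add_distrib, hp1, ← Finset.sum_mul, one_mul] at this
  have e : ∑ i, p i * (t * u i) = t * ∑ i, p i * u i := by
    rw [Finset.mul_sum]; exact Finset.sum_congr rfl fun i _ => by ring
  rw [e] at this
  linarith

/-- Small relative entropy moves the mean of a bounded function little. -/
lemma mean_sub_le [Nonempty ι] {q p u : ι → ℝ} (hp : ∀ i, 0 < p i) (hp1 : ∑ i, p i = 1)
    (hq : ∀ i, 0 ≤ q i) (hq1 : ∑ i, q i = 1) {R B : ℝ} (hR : 1 ≤ R) (hu : ∀ i, |u i| ≤ R)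
    (hB : relEnt q p ≤ B) :
    ∑ i, q i * u i - ∑ i, p i * u i ≤ 16 * R ^ 2 * B + 1 / 16 := by
  set t := 1 / (16 * R ^ 2) with ht
  have hR2 : 1 ≤ R ^ 2 := one_le_pow₀ hR
  have htpos : 0 < t := by positivity
  have htR : t * R ≤ 1 := by
    rw [ht, div_mul_eq_mul_div, div_le_one (by positivity)]
    nlinarith
  have h1 := gibbs_ineq hp hq hq1 fun i => t * u i
  have h2 := log_mgf_le hp hp1 htpos.le hu htR
  have e : ∑ i, q i * (t * u i) = t * ∑ i, q i * u i := by
    rw [Finset.mul_sum]; exact Finset.sum_congr rfl fun i _ => by ring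
  rw [e] at h1
  have h3 : t * (∑ i, q i * u i - ∑ i, p i * u i) ≤ B + t ^ 2 * R ^ 2 := by linarith
  have h4 : t * (16 * R ^ 2 * B + 1 / 16) = B + t ^ 2 * R ^ 2 := by
    rw [ht]; field_simp
  rw [← h4] at h3
  exact le_of_mul_le_mul_left h3 htpos

end Entropy

section Stage

variable {ι : Type*} [Fintype ι] [Nonempty ι]
variable {E : Type*} [NormedAddCommGroup E] [InnerProductSpace ℝ E] [FiniteDimensional ℝ E]

/-- One stage: the best tilt is named by a net point, at a small cost in entropy. -/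
lemma stage {D : Set E} (hDc : IsCompact D) (hDv : Convex ℝ D) (h0 : (0 : E) ∈ D) (r : ι → E)
    {R ρ : ℝ} (hr : ∀ i, ∀ z ∈ D, |⟪r i, z⟫_ℝ| ≤ R) {Z : Finset E}
    (hnet : ∀ z ∈ D, ∃ z' ∈ Z, ∀ i, |⟪r i, z - z'⟫_ℝ| ≤ ρ)
    {p q : ι → ℝ} (hp : ∀ i, 0 < p i) (hnorm : ∑ i, p i = 1) (hq : ∀ i, 0 ≤ q i)
    (hq1 : ∑ i, q i = 1) {B : ℝ} (hB : 0 < B) (hqB : relEnt q p ≤ B) {c : E} {e g : ℝ}
    (hg : 0 < g) (hc : ∀ z ∈ D, ⟪c, z⟫_ℝ ≤ ∑ i, q i * ⟪r i, z⟫_ℝ + e) :
    ∃ z' ∈ Z, ∃ q' : ι → ℝ, (∀ i, 0 ≤ q' i) ∧ ∑ i, q' i = 1 ∧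
      relEnt q' (gibbs p fun i => ⟪r i, (2 * B / g) • z'⟫_ℝ) ≤ 4 * B * ρ / g ∧
      ∀ z ∈ D, ⟪c, z⟫_ℝ ≤ ∑ i, q' i * ⟪r i, z⟫_ℝ + (e + g) := by
  classical
  set Λ := 2 * B / g with hΛ
  have hΛpos : 0 < Λ := by positivity
  let Φ : ℝ × E → ℝ := fun w =>
    w.1 * (⟪c, w.2⟫_ℝ - (e + g)) - Real.log (∑ i, p i * Real.exp (w.1 * ⟪r i, w.2⟫_ℝ))
  have hcont : Continuous Φ := by
    refine Continuous.sub (by fun_prop) (Continuous.log (by fun_prop) fun w => ?_)
    exact (sum_exp_pos hp _).ne'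
  obtain ⟨⟨lam, z⟩, hmem, hmax⟩ := (isCompact_Icc.prod hDc).exists_isMaxOn
    (s := Icc (0 : ℝ) Λ ×ˢ D) ⟨(0, 0), ⟨⟨le_rfl, hΛpos.le⟩, h0⟩⟩ hcont.continuousOn
  obtain ⟨⟨hl0, hlΛ⟩, hz⟩ := hmem
  simp only at hl0 hlΛ hz
  have hmax' : ∀ w ∈ Icc (0 : ℝ) Λ ×ˢ D, Φ w ≤ Φ (lam, z) := fun w hw => hmax hw
  have hp1 : 0 ≤ Φ (lam, z) - Φ (0, 0) :=
    sub_nonneg.2 (hmax' (0, 0) ⟨⟨le_rfl, hΛpos.le⟩, h0⟩)
  -- the Gibbs inequality caps the tilt
  have hcap : Φ (lam, z) - Φ (0, 0) ≤ B + Real.log (∑ i, p i) - lam * g := by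
    have h1 := gibbs_ineq hp hq hq1 fun i => lam * ⟪r i, z⟫_ℝ
    have h2 : lam * ⟪c, z⟫_ℝ ≤ ∑ i, q i * (lam * ⟪r i, z⟫_ℝ) + lam * e := by
      have := mul_le_mul_of_nonneg_left (hc z hz) hl0
      rw [mul_add, Finset.mul_sum] at this
      refine this.trans (le_of_eq ?_)
      congr 1
      exact Finset.sum_congr rfl fun i _ => by ring
    simp only [Φ, zero_mul, Real.exp_zero, mul_one, zero_sub]
    linarith
  set S := ∑ i, p i * Real.exp (lam * ⟪r i, z⟫_ℝ) with hS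
  set q' := gibbs p fun i => lam * ⟪r i, z⟫_ℝ with hq'
  rw [hnorm, Real.log_one, add_zero] at hcap
  have hlam : lam * g ≤ B := by linarith
  have hlamlt : lam < Λ := by
    rw [hΛ, lt_div_iff₀ hg]
    linarith
  obtain ⟨z', hz', hsp⟩ := hnet ((lam / Λ) • z) (hDv.smul_mem_of_zero_mem h0 hz
    ⟨by positivity, (div_le_one hΛpos).2 hlΛ⟩)
  refine ⟨z', hz', q', fun i => (gibbs_nonneg hp _ i).le, gibbs_sum hp _, ?_, ?_⟩
  · show relEnt q' (gibbs p fun i => ⟪r i, Λ • z'⟫_ℝ) ≤ _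
    refine (relEnt_gibbs_le hp (d := Λ * ρ) fun i => ?_).trans (le_of_eq ?_)
    · rw [real_inner_smul_right]
      have e1 : lam * ⟪r i, z⟫_ℝ = Λ * ⟪r i, (lam / Λ) • z⟫_ℝ := by
        rw [real_inner_smul_right]; field_simp
      rw [e1, ← mul_sub, abs_mul, abs_of_pos hΛpos, ← inner_sub_right]
      exact mul_le_mul_of_nonneg_left (hsp i) hΛpos.le
    · rw [hΛ]; ring
  · -- first-order optimality
    intro z₁ hz₁
    by_contra hcon
    push Not at hcon
    set γ := ⟪c, z₁⟫_ℝ - (e + g) - ∑ i, q' i * ⟪r i, z₁⟫_ℝ with hγ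
    have hγpos : 0 < γ := by rw [hγ]; linarith
    set R' := max R 1 with hR'
    have hR'1 : 1 ≤ R' := le_max_right _ _
    set t := min (min (Λ - lam) (1 / R')) (γ / (2 * R' ^ 2)) with ht
    have htpos : 0 < t := lt_min (lt_min (by linarith) (by positivity)) (by positivity)
    have ht1 : t ≤ Λ - lam := (min_le_left _ _).trans (min_le_left _ _)
    have ht2 : t * R' ≤ 1 := by
      have := mul_le_mul_of_nonneg_right ((min_le_left _ _).trans (min_le_right _ _) : t ≤ 1 / R')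
        (by linarith : 0 ≤ R')
      rwa [one_div_mul_cancel (by linarith)] at this
    have ht3 : t * R' ^ 2 < γ := by
      have := mul_le_mul_of_nonneg_right (min_le_right _ _ : t ≤ γ / (2 * R' ^ 2))
        (sq_nonneg R')
      have e1 : γ / (2 * R' ^ 2) * R' ^ 2 = γ / 2 := by field_simp
      linarith
    have hsum : 0 < lam + t := by linarith
    set w := (lam / (lam + t)) • z + (t / (lam + t)) • z₁ with hw
    have hwD : w ∈ D := hDv hz hz₁ (by positivity) (by positivity) (by field_simp)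
    have hwmul : ∀ x : E, (lam + t) * ⟪x, w⟫_ℝ = lam * ⟪x, z⟫_ℝ + t * ⟪x, z₁⟫_ℝ := by
      intro x
      rw [hw, inner_add_right, real_inner_smul_right, real_inner_smul_right]
      field_simp
    have hle := hmax' (lam + t, w) ⟨⟨hsum.le, by linarith⟩, hwD⟩
    have hSpos : 0 < S := sum_exp_pos hp _
    have hmgf := log_mgf_le (gibbs_nonneg hp fun i => lam * ⟪r i, z⟫_ℝ) (gibbs_sum hp _) htpos.le
      (u := fun i => ⟪r i, z₁⟫_ℝ) (fun i => (hr i z₁ hz₁).trans (le_max_left _ _)) ht2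
    have esum : ∑ i, q' i * Real.exp (t * ⟪r i, z₁⟫_ℝ) =
        (∑ i, p i * Real.exp ((lam + t) * ⟪r i, w⟫_ℝ)) / S := by
      rw [Finset.sum_div]
      refine Finset.sum_congr rfl fun i _ => ?_
      rw [hwmul, Real.exp_add, hq', gibbs, ← hS]
      ring
    rw [← hq', esum, Real.log_div (sum_exp_pos hp _).ne' hSpos.ne'] at hmgf
    simp only [Φ, ← hS] at hle
    have e2 : (lam + t) * (⟪c, w⟫_ℝ - (e + g)) =
        lam * (⟪c, z⟫_ℝ - (e + g)) + t * (⟪c, z₁⟫_ℝ - (e + g)) := by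
      rw [mul_sub, hwmul]; ring
    rw [e2] at hle
    have h4 : t * γ ≤ t * (t * R' ^ 2) := by
      rw [hγ]; nlinarith
    exact absurd (le_of_mul_le_mul_left h4 htpos) (not_le.2 ht3)

end Stage

end Vale.Agent.P126.Tilt
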